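import Vale.Agent.P366.Stmt
import Mathlib.Analysis.Calculus.FDeriv.Symmetric

/-! Rules for the partial derivatives of `Stmt`. -/

open MeasureTheory Metric Filter Topology Set
open scoped ContDiff ENNReal

noncomputable section
namespace Vale.Agent.P366.H375
open Vale.Agent.P366.Stmt

variable {n : ℕ}

/-- `d` is the partial derivative of `f` at `x` in the direction `k`. -/
def HP (k : Fin n) (f : E n → ℝ) (d : ℝ) (x : E n) : Prop :=
  HasLineDerivAt ℝ f d x (EuclideanSpace.single k 1)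

lemma HP.pd {k : Fin n} {f : E n → ℝ} {d : ℝ} {x : E n} (h : HP k f d x) : pd k f x = d :=
  HasLineDerivAt.lineDeriv h

lemma HP.of_diff {k : Fin n} {f : E n → ℝ} {x : E n} (h : DifferentiableAt ℝ f x) :
    HP k f (Stmt.pd k f x) x := by
  have := h.hasFDerivAt.hasLineDerivAt (EuclideanSpace.single k (1 : ℝ))
  unfold HP Stmt.pd
  rw [HasLineDerivAt.lineDeriv this]
  exact this

lemma HP.congr {k : Fin n} {f g : E n → ℝ} {d : ℝ} {x : E n} (h : HP k f d x)
    (hfg : g =ᶠ[𝓝 x] f) : HP k g d x :=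
  HasLineDerivAt.congr_of_eventuallyEq h hfg

lemma HP.const (k : Fin n) (c : ℝ) (x : E n) : HP k (fun _ => c) 0 x := by
  unfold HP HasLineDerivAt
  exact hasDerivAt_const _ _

lemma HP.add {k : Fin n} {f g : E n → ℝ} {d e : ℝ} {x : E n} (hf : HP k f d x)
    (hg : HP k g e x) : HP k (fun y => f y + g y) (d + e) x := HasDerivAt.add hf hg

lemma HP.sub {k : Fin n} {f g : E n → ℝ} {d e : ℝ} {x : E n} (hf : HP k f d x)
    (hg : HP k g e x) : HP k (fun y => f y - g y) (d - e) x := HasDerivAt.sub hf hg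

lemma HP.neg {k : Fin n} {f : E n → ℝ} {d : ℝ} {x : E n} (hf : HP k f d x) :
    HP k (fun y => -f y) (-d) x := HasDerivAt.neg hf

lemma HP.mul {k : Fin n} {f g : E n → ℝ} {d e : ℝ} {x : E n} (hf : HP k f d x)
    (hg : HP k g e x) : HP k (fun y => f y * g y) (d * g x + f x * e) x := by
  have := HasDerivAt.mul (hf : HasDerivAt _ _ _) (hg : HasDerivAt _ _ _)
  simp only [zero_smul, add_zero] at this
  exact this

lemma HP.sum {ι : Type*} (s : Finset ι) {k : Fin n} {f : ι → E n → ℝ} {d : ι → ℝ} {x : E n}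
    (h : ∀ a ∈ s, HP k (f a) (d a) x) : HP k (fun y => ∑ a ∈ s, f a y) (∑ a ∈ s, d a) x :=
  HasDerivAt.fun_sum h

lemma pd_congr {f g : E n → ℝ} {x : E n} (h : f =ᶠ[𝓝 x] g) (i : Fin n) : pd i f x = pd i g x := by
  unfold Stmt.pd
  exact h.lineDeriv_eq

lemma pd_fderiv {f : E n → ℝ} {x : E n} (hf : DifferentiableAt ℝ f x) (i : Fin n) :
    pd i f x = fderiv ℝ f x (EuclideanSpace.single i 1) :=
  hf.lineDeriv_eq_fderiv

lemma pd_ev {f : E n → ℝ} {x : E n} (hf : ContDiffAt ℝ ∞ f x) (i : Fin n) :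
    pd i f =ᶠ[𝓝 x] fun y => fderiv ℝ f y (EuclideanSpace.single i 1) := by
  have h1 : ContDiffAt ℝ 1 f x := hf.of_le (by exact_mod_cast le_top)
  filter_upwards [h1.eventually (by simp)] with y hy
  exact pd_fderiv (hy.differentiableAt one_ne_zero) i

lemma cd_pd {f : E n → ℝ} {x : E n} (hf : ContDiffAt ℝ ∞ f x) (i : Fin n) :
    ContDiffAt ℝ ∞ (pd i f) x := by
  have h1 : ContDiffAt ℝ ∞ (fderiv ℝ f) x := hf.fderiv_right (by simp)
  exact (h1.clm_apply contDiffAt_const).congr_of_eventuallyEq (pd_ev hf i)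

lemma cd_diff {f : E n → ℝ} {x : E n} (hf : ContDiffAt ℝ ∞ f x) : DifferentiableAt ℝ f x :=
  hf.differentiableAt (by simp)

lemma HP.of_cd {k : Fin n} {f : E n → ℝ} {x : E n} (h : ContDiffAt ℝ ∞ f x) :
    HP k f (Stmt.pd k f x) x := HP.of_diff (cd_diff h)

/-- second derivatives commute -/
lemma pd_symm {f : E n → ℝ} {x : E n} (hf : ContDiffAt ℝ ∞ f x) (i j : Fin n) :
    pd i (pd j f) x = pd j (pd i f) x := by
  have hd : DifferentiableAt ℝ (fderiv ℝ f) x :=
    (hf.fderiv_right (m := ∞) (by simp)).differentiableAt (by simp)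
  have key : ∀ a b : Fin n, pd a (pd b f) x =
      fderiv ℝ (fderiv ℝ f) x (EuclideanSpace.single a 1) (EuclideanSpace.single b 1) := by
    intro a b
    rw [pd_congr (pd_ev hf b) a, pd_fderiv (hd.clm_apply (differentiableAt_const _))]
    have := fderiv_clm_apply hd (differentiableAt_const (EuclideanSpace.single b (1 : ℝ)))
    rw [this]
    simp
  rw [key, key]
  have h2 : minSmoothness ℝ 2 ≤ (∞ : WithTop ℕ∞) := by
    rw [minSmoothness_of_isRCLikeNormedField]
    exact WithTop.coe_le_coe.2 (le_top : (2 : ℕ∞) ≤ ⊤)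
  exact (hf.isSymmSndFDerivAt h2).eq _ _

end Vale.Agent.P366.H375
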