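import Vale.Agent.P366.H375.X2

/-! Positivity of the slice metric of a Kerr-Schild metric. -/

open MeasureTheory Metric Filter Topology Set
open scoped ContDiff ENNReal Matrix

noncomputable section
namespace Vale.Agent.P366.H375
open Vale.Agent.P366.Stmt

variable {n : ℕ}

/-- the matrix of the slice metric -/
def KG (f u : Fin n → ℝ) (v : ℝ) : Matrix (Fin n) (Fin n) ℝ := Matrix.of fun i j =>
  dl i j - f i * f j + v * (f i + u i) * (f j + u j)

lemma KG_form (f u : Fin n → ℝ) (v : ℝ) (w : Fin n → ℝ) : ∑ i, ∑ j, KG f u v i j * w i * w j =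
    ∑ i, w i * w i - (∑ i, f i * w i) ^ 2 + v * (∑ i, f i * w i + ∑ i, u i * w i) ^ 2 := by
  have e : ∀ i, ∑ j, KG f u v i j * w i * w j = w i * w i -
      (∑ j, f j * w j) * (f i * w i) +
      v * (∑ j, f j * w j + ∑ j, u j * w j) * (f i * w i + u i * w i) := by
    intro i
    have e1 : ∀ j, KG f u v i j * w i * w j = w i * (dl i j * w j) - f i * w i * (f j * w j) +
        v * (f i * w i + u i * w i) * (f j * w j + u j * w j) := by
      intro j
      unfold KG
      rw [Matrix.of_apply]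
      ring
    simp only [e1, Finset.sum_add_distrib, Finset.sum_sub_distrib, ← Finset.mul_sum, sum_dl]
    ring
  simp only [e, Finset.sum_add_distrib, Finset.sum_sub_distrib, ← Finset.mul_sum]
  ring

/-- positivity in terms of the quadratic form -/
lemma posDef_iff {M : Matrix (Fin n) (Fin n) ℝ} (hM : ∀ i j, M i j = M j i) :
    M.PosDef ↔ ∀ w : Fin n → ℝ, w ≠ 0 → 0 < ∑ i, ∑ j, M i j * w i * w j := by
  have e : ∀ w : Fin n → ℝ, star w ⬝ᵥ M *ᵥ w = ∑ i, ∑ j, M i j * w i * w j := by
    intro w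
    simp only [dotProduct, Matrix.mulVec, star_trivial, Finset.mul_sum]
    exact Finset.sum_congr rfl fun i _ => Finset.sum_congr rfl fun j _ => by ring
  constructor
  · intro h w hw
    rw [← e]
    exact h.dotProduct_mulVec_pos hw
  · intro h
    refine Matrix.PosDef.of_dotProduct_mulVec_pos ?_ ?_
    · ext i j
      rw [Matrix.conjTranspose_apply, star_trivial, hM]
    · intro w hw
      rw [e]
      exact h w hw

variable {f u : Fin n → ℝ} {v : ℝ}

/-- `S ≠ 0` from positivity of the metric -/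
theorem ne_of_posDef (hu : ∑ i, u i * u i = 1) (h : (KG f u v).PosDef) :
    1 + ∑ i, f i * u i ≠ 0 := by
  have hsy : ∀ i j, KG f u v i j = KG f u v j i := by
    intro i j
    unfold KG
    rw [Matrix.of_apply, Matrix.of_apply, dl_symm]
    ring
  rw [posDef_iff hsy] at h
  intro h0
  have h1 := h u (by
    rintro rfl
    simp at hu)
  rw [KG_form, hu] at h1
  have : ∑ i, f i * u i = -1 := by linarith
  rw [this] at h1
  norm_num at h1

/-- `c + v S² > 0` from positivity of the metric -/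
theorem sq_pos_of_posDef (hu : ∑ i, u i * u i = 1) (h : (KG f u v).PosDef) :
    0 < 1 - ∑ i, f i * f i + v * (1 + ∑ i, f i * u i) ^ 2 := by
  have hsy : ∀ i j, KG f u v i j = KG f u v j i := by
    intro i j
    unfold KG
    rw [Matrix.of_apply, Matrix.of_apply, dl_symm]
    ring
  rw [posDef_iff hsy] at h
  obtain ⟨a, ha⟩ : ∃ a, a = ∑ i, f i * u i := ⟨_, rfl⟩
  obtain ⟨b, hb⟩ : ∃ b, b = ∑ i, f i * f i := ⟨_, rfl⟩
  have huf : ∑ i, u i * f i = a := by
    rw [ha]; exact Finset.sum_congr rfl fun i _ => mul_comm _ _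
  rw [← ha, ← hb]
  have hS : 1 + a ≠ 0 := by
    intro h0
    have h1 := h u (by
      rintro rfl
      simp at hu)
    rw [KG_form, hu, ← ha] at h1
    have : a = -1 := by linarith
    rw [this] at h1
    norm_num at h1
  -- the normal direction
  obtain ⟨s, hs⟩ : ∃ s, s = 1 - b + v * (1 + a) ^ 2 := ⟨_, rfl⟩
  obtain ⟨w, hw⟩ : ∃ w : Fin n → ℝ, w = fun i => (s - v * (1 + a) ^ 2) * u i + (1 + a) * f i :=
    ⟨_, rfl⟩
  have hfw : ∑ i, f i * w i = (s - v * (1 + a) ^ 2) * a + (1 + a) * b := by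
    rw [hw, ha, hb, Finset.mul_sum, Finset.mul_sum, ← Finset.sum_add_distrib]
    exact Finset.sum_congr rfl fun i _ => by ring
  have huw : ∑ i, u i * w i = (s - v * (1 + a) ^ 2) + (1 + a) * a := by
    have : ∑ i, u i * w i = (s - v * (1 + a) ^ 2) * (∑ i, u i * u i) +
        (1 + a) * ∑ i, u i * f i := by
      rw [hw, Finset.mul_sum, Finset.mul_sum, ← Finset.sum_add_distrib]
      exact Finset.sum_congr rfl fun i _ => by ring
    rw [this, hu, huf]
    ring
  have hww : ∑ i, w i * w i = (s - v * (1 + a) ^ 2) * ((s - v * (1 + a) ^ 2) + (1 + a) * a) +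
      (1 + a) * ((s - v * (1 + a) ^ 2) * a + (1 + a) * b) := by
    rw [← hfw, ← huw, Finset.mul_sum, Finset.mul_sum, ← Finset.sum_add_distrib]
    refine Finset.sum_congr rfl fun i _ => ?_
    have : w i = (s - v * (1 + a) ^ 2) * u i + (1 + a) * f i := by rw [hw]
    conv_lhs => rw [this]
    rw [this]
    ring
  have hFw : ∑ i, f i * w i + ∑ i, u i * w i = (1 + a) ^ 2 := by
    rw [hfw, huw, hs]
    ring
  have hw0 : w ≠ 0 := by
    intro h0
    rw [h0] at hFw
    simp only [Pi.zero_apply, mul_zero, Finset.sum_const_zero, add_zero] at hFw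
    exact hS (pow_eq_zero_iff (two_ne_zero) |>.1 hFw.symm)
  have h2 := h w hw0
  rw [KG_form, hFw, hww, hfw] at h2
  have h3 : (s - v * (1 + a) ^ 2) * ((s - v * (1 + a) ^ 2) + (1 + a) * a) +
      (1 + a) * ((s - v * (1 + a) ^ 2) * a + (1 + a) * b) -
      ((s - v * (1 + a) ^ 2) * a + (1 + a) * b) ^ 2 + v * ((1 + a) ^ 2) ^ 2 =
      (1 + a) ^ 2 * s := by
    rw [hs]
    ring
  rw [h3, hs] at h2
  exact pos_of_mul_pos_right h2 (sq_nonneg _)

end Vale.Agent.P366.H375
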