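import Vale.Agent.P366.H353.Basic

/-! Null shells in Minkowski space: the pointwise inequality. -/

open MeasureTheory Metric Filter Topology Set
open scoped ContDiff

noncomputable section
namespace Vale.Agent.P366.H353

open Vale.Agent.P366 (sphI sphM pd E)

/-- The inequality between traces and determinants in the plane. -/
theorem plane_ineq {a b c P R S C κ g1 g2 u1 u2 p r s : ℝ} (ha : 0 < a) (hd : 0 < a * c - b ^ 2)
    (hC : 0 < C) (hC1 : C ≤ 1) (hg : g1 ^ 2 + g2 ^ 2 = 4 * (1 - C ^ 2))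
    (hκ : κ = (2 * C ^ 2 - 1) / C)
    (hP : P = p + κ + g1 ^ 2 / (4 * C)) (hR : R = r + g1 * g2 / (4 * C))
    (hS : S = s + κ + g2 ^ 2 / (4 * C))
    (hB : ∀ m n : ℝ, 0 ≤ P * m ^ 2 + 2 * R * (m * n) + S * n ^ 2) :
    4 * (a * c - b ^ 2) * (P * S - R ^ 2) ≤
      ((a + c) * (p + s) - (a * p + 2 * (b * r) + c * s) + (u1 * g1 + u2 * g2) +
        (a + c + (c * u1 ^ 2 - 2 * b * (u1 * u2) + a * u2 ^ 2) / (a * c - b ^ 2))) ^ 2 := by
  set d := a * c - b ^ 2 with hdd
  obtain ⟨X, hX⟩ : ∃ X, X = c * P - 2 * (b * R) + a * S := ⟨_, rfl⟩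
  have hPn : 0 ≤ P := by
    have := hB 1 0
    linarith
  have hX0 : 0 ≤ X := by
    have h1 := hB b (-a)
    have h2 : a * X = d * P + (P * b ^ 2 + 2 * R * (b * -a) + S * (-a) ^ 2) := by
      rw [hX, hdd]; ring
    have h3 : 0 ≤ a * X := by
      rw [h2]
      exact add_nonneg (mul_nonneg hd.le hPn) h1
    exact nonneg_of_mul_nonneg_right h3 ha
  have hX2 : 4 * d * (P * S - R ^ 2) ≤ X ^ 2 := by
    have h1 : a ^ 2 * (X ^ 2 - 4 * d * (P * S - R ^ 2)) =
        (d * P - (b ^ 2 * P - 2 * a * b * R + a ^ 2 * S)) ^ 2 + 4 * d * (b * P - a * R) ^ 2 := by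
      rw [hX, hdd]; ring
    have h2 : 0 ≤ a ^ 2 * (X ^ 2 - 4 * d * (P * S - R ^ 2)) := by
      rw [h1]; positivity
    have h3 : 0 ≤ X ^ 2 - 4 * d * (P * S - R ^ 2) :=
      nonneg_of_mul_nonneg_right h2 (by positivity)
    linarith
  have hW : ∀ m n : ℝ, 0 ≤ a * m ^ 2 + 2 * b * (m * n) + c * n ^ 2 := by
    intro m n
    have h1 : a * (a * m ^ 2 + 2 * b * (m * n) + c * n ^ 2) = (a * m + b * n) ^ 2 + d * n ^ 2 := by
      rw [hdd]; ring
    have h2 : 0 ≤ a * (a * m ^ 2 + 2 * b * (m * n) + c * n ^ 2) := by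
      rw [h1]; positivity
    exact nonneg_of_mul_nonneg_right h2 ha
  have hc : 0 < c := by
    by_contra h
    have : a * c ≤ 0 := mul_nonpos_of_nonneg_of_nonpos ha.le (not_lt.1 h)
    have := sq_nonneg b
    linarith
  obtain ⟨w, hw⟩ : ∃ w, w = a * g1 ^ 2 + 2 * b * (g1 * g2) + c * g2 ^ 2 := ⟨_, rfl⟩
  have hw0 : 0 ≤ w := hw ▸ hW g1 g2
  obtain ⟨v, hv⟩ : ∃ v, v = c * u1 ^ 2 - 2 * b * (u1 * u2) + a * u2 ^ 2 := ⟨_, rfl⟩
  have hz : 0 ≤ w / 4 + (u1 * g1 + u2 * g2) + v / d := by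
    have h1 := hW (d * g1 / 2 + (c * u1 - b * u2)) (d * g2 / 2 + (a * u2 - b * u1))
    have h2 : d ^ 2 * (w / 4 + (u1 * g1 + u2 * g2) + v / d) =
        a * (d * g1 / 2 + (c * u1 - b * u2)) ^ 2 +
        2 * b * ((d * g1 / 2 + (c * u1 - b * u2)) * (d * g2 / 2 + (a * u2 - b * u1))) +
        c * (d * g2 / 2 + (a * u2 - b * u1)) ^ 2 := by
      have h3 : d ^ 2 * (w / 4 + (u1 * g1 + u2 * g2) + v / d) =
          d ^ 2 * (w / 4 + (u1 * g1 + u2 * g2)) + d * v := by
        field_simp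
      rw [h3, hw, hv, hdd]; ring
    exact nonneg_of_mul_nonneg_right (h2 ▸ h1) (by positivity)
  have hL : (a + c) * (p + s) - (a * p + 2 * (b * r) + c * s) + (u1 * g1 + u2 * g2) +
      (a + c + v / d) = X + (a + c) * (1 - C) + w / (4 * C) + (u1 * g1 + u2 * g2) + v / d := by
    have hp : p = P - κ - g1 ^ 2 / (4 * C) := by linarith
    have hr : r = R - g1 * g2 / (4 * C) := by linarith
    have hs : s = S - κ - g2 ^ 2 / (4 * C) := by linarith
    generalize v / d = y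
    rw [hp, hr, hs, hκ, hX, hw]
    field_simp
    linear_combination (-(a + c)) * hg
  rw [← hv, hL]
  have hwC : w / 4 ≤ w / (4 * C) := by
    apply div_le_div_of_nonneg_left hw0 (by positivity)
    linarith
  have hT : 0 ≤ (a + c) * (1 - C) := mul_nonneg (by positivity) (by linarith)
  refine hX2.trans ?_
  apply pow_le_pow_left₀ hX0
  linarith

/-! ### frames -/

/-- `x`, `e`, `f` is an orthonormal basis of `ℝ³`. -/
structure Fr (x e f : Fin 3 → ℝ) : Prop where
  comp : ∀ i j, kd i j = x i * x j + e i * e j + f i * f j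
  xx : ∑ i, x i * x i = 1
  ee : ∑ i, e i * e i = 1
  ff : ∑ i, f i * f i = 1
  ef : ∑ i, e i * f i = 0
  xe : ∑ i, x i * e i = 0
  xf : ∑ i, x i * f i = 0

theorem exists_fr {x : Fin 3 → ℝ} (hx : ∑ i, x i * x i = 1) : ∃ e f, Fr x e f := by
  have h3 : x 0 * x 0 + x 1 * x 1 + x 2 * x 2 = 1 := by simpa only [Fin.sum_univ_three] using hx
  by_cases h : x 0 * x 0 + x 1 * x 1 = 0
  · have h0 : x 0 = 0 := by nlinarith [mul_self_nonneg (x 0), mul_self_nonneg (x 1)]
    have h1 : x 1 = 0 := by nlinarith [mul_self_nonneg (x 0), mul_self_nonneg (x 1)]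
    refine ⟨![1, 0, 0], ![0, 1, 0], ?_, hx, ?_, ?_, ?_, ?_, ?_⟩
    · intro i j
      fin_cases i <;> fin_cases j <;> simp [kd, h0, h1]
      nlinarith
    all_goals simp [Fin.sum_univ_three, h0, h1]
  · have hp : 0 < x 0 * x 0 + x 1 * x 1 :=
      lt_of_le_of_ne (add_nonneg (mul_self_nonneg _) (mul_self_nonneg _)) (Ne.symm h)
    obtain ⟨ρ, hρ0, hρ⟩ : ∃ ρ : ℝ, 0 < ρ ∧ ρ * ρ = x 0 * x 0 + x 1 * x 1 :=
      ⟨√(x 0 * x 0 + x 1 * x 1), Real.sqrt_pos.2 hp, Real.mul_self_sqrt hp.le⟩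
    have hi : ρ * ρ⁻¹ = 1 := mul_inv_cancel₀ hρ0.ne'
    set m := ρ⁻¹
    have hJ : m * m * (x 0 * x 0 + x 1 * x 1) = 1 := by
      rw [← hρ]
      linear_combination (ρ * m + 1) * hi
    refine ⟨![-(x 1 * m), x 0 * m, 0], ![-(x 2 * x 0 * m), -(x 2 * x 1 * m), ρ], ?_, hx, ?_, ?_, ?_,
      ?_, ?_⟩
    · intro i j
      fin_cases i <;> fin_cases j <;> simp [kd]
      · linear_combination (-(1 - x 0 * x 0)) * hJ - x 0 * x 0 * m * m * h3
      · linear_combination x 0 * x 1 * hJ - x 0 * x 1 * m * m * h3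
      · linear_combination x 0 * x 2 * hi
      · linear_combination x 0 * x 1 * hJ - x 0 * x 1 * m * m * h3
      · linear_combination (-(1 - x 1 * x 1)) * hJ - x 1 * x 1 * m * m * h3
      · linear_combination x 1 * x 2 * hi
      · linear_combination x 0 * x 2 * hi
      · linear_combination x 1 * x 2 * hi
      · linear_combination -h3 - hρ
    · simp [Fin.sum_univ_three]
      linear_combination hJ
    · simp [Fin.sum_univ_three]
      linear_combination x 2 * x 2 * hJ + hρ + h3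
    · simp [Fin.sum_univ_three]
      ring
    · simp [Fin.sum_univ_three]
      ring
    · simp [Fin.sum_univ_three]
      linear_combination (-x 2 * ρ) * hi + x 2 * m * hρ

namespace Fr

variable {x e f : Fin 3 → ℝ} (F : Fr x e f)

include F

/-- expansion of a vector -/
theorem vec (v : Fin 3 → ℝ) (i : Fin 3) :
    v i = (∑ j, x j * v j) * x i + (∑ j, e j * v j) * e i + (∑ j, f j * v j) * f i := by
  have h : ∑ j, kd i j * v j = v i := by simp [kd]
  rw [← h]
  simp only [F.comp i, Fin.sum_univ_three]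
  ring

/-- expansion of a tangent vector -/
theorem vec' {v : Fin 3 → ℝ} (hv : ∑ j, x j * v j = 0) (i : Fin 3) :
    v i = (∑ j, e j * v j) * e i + (∑ j, f j * v j) * f i := by
  have := F.vec v i
  rw [hv] at this
  linarith

/-- expansion of a symmetric tangent matrix -/
theorem mat {M : Fin 3 → Fin 3 → ℝ} (hM : ∀ i j, M i j = M j i) (hx : ∀ i, ∑ j, M i j * x j = 0)
    (i j : Fin 3) : M i j = qf M e e * (e i * e j) + qf M e f * (e i * f j + f i * e j) +
      qf M f f * (f i * f j) := by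
  have hv : ∀ v : Fin 3 → ℝ, ∑ k, x k * (∑ l, M k l * v l) = 0 := by
    intro v
    have : ∑ k, x k * (∑ l, M k l * v l) = ∑ l, v l * (∑ k, M l k * x k) := by
      simp only [Fin.sum_univ_three, hM 1 0, hM 2 0, hM 2 1]
      ring
    rw [this]
    simp [hx]
  have h1 : M i j = (∑ l, M i l * e l) * e j + (∑ l, M i l * f l) * f j := by
    have h := F.vec (fun l => M i l) j
    have h0 := hx i
    simp only [Fin.sum_univ_three] at h h0 ⊢
    linear_combination h + x j * h0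
  have he := F.vec' (hv e) i
  have hf := F.vec' (hv f) i
  have h2 : ∀ v w : Fin 3 → ℝ, ∑ k, v k * (∑ l, M k l * w l) = qf M v w := by
    intro v w
    unfold qf
    simp only [Finset.mul_sum]
    exact Finset.sum_congr rfl fun k _ => Finset.sum_congr rfl fun l _ => by ring
  have h3 : qf M f e = qf M e f := by
    unfold qf
    rw [Finset.sum_comm]
    exact Finset.sum_congr rfl fun k _ => Finset.sum_congr rfl fun l _ => by rw [hM l k]; ring
  rw [h2, h2, h3] at he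
  rw [h2, h2] at hf
  rw [h1, he, hf]
  ring

end Fr

/-- A matrix on the plane. -/
def fm (e f : Fin 3 → ℝ) (a b c : ℝ) (i j : Fin 3) : ℝ :=
  a * (e i * e j) + b * (e i * f j + f i * e j) + c * (f i * f j)

namespace Fr

variable {x e f : Fin 3 → ℝ} (F : Fr x e f)

include F

theorem tr_fm (a b c : ℝ) : tr3 (fm e f a b c) = a + c := by
  have h1 := F.ee
  have h2 := F.ff
  have h3 := F.ef
  simp only [tr3, fm, Fin.sum_univ_three] at *
  linear_combination a * h1 + c * h2 + 2 * b * h3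

theorem ip_fm (a b c p r s : ℝ) :
    ip3 (fm e f a b c) (fm e f p r s) = a * p + 2 * (b * r) + c * s := by
  have h1 := F.ee
  have h2 := F.ff
  have h3 := F.ef
  have h : ip3 (fm e f a b c) (fm e f p r s) =
      a * p * (∑ i, e i * e i) ^ 2 + 2 * (a * r + b * p) * ((∑ i, e i * e i) * ∑ i, e i * f i) +
      (a * s + c * p + 2 * (b * r)) * (∑ i, e i * f i) ^ 2 +
      2 * (b * r) * ((∑ i, e i * e i) * ∑ i, f i * f i) +
      2 * (b * s + c * r) * ((∑ i, e i * f i) * ∑ i, f i * f i) + c * s * (∑ i, f i * f i) ^ 2 := by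
    simp only [ip3, fm, Fin.sum_univ_three]
    ring
  rw [h, h1, h2, h3]
  ring

theorem det_fm (a b c : ℝ) : det2 (fm e f a b c) = a * c - b ^ 2 := by
  unfold det2
  rw [F.tr_fm, F.ip_fm]
  ring

omit F in
theorem qf_fm (a b c : ℝ) (v w : Fin 3 → ℝ) : qf (fm e f a b c) v w =
    a * ((∑ i, e i * v i) * ∑ i, e i * w i) +
    b * ((∑ i, e i * v i) * (∑ i, f i * w i) + (∑ i, f i * v i) * ∑ i, e i * w i) +
    c * ((∑ i, f i * v i) * ∑ i, f i * w i) := by
  simp only [qf, fm, Fin.sum_univ_three]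
  ring

theorem pr_eq : pr x = fm e f 1 0 1 := by
  funext i j
  simp only [pr, fm, F.comp i j]
  ring

theorem mat_eq {M : Fin 3 → Fin 3 → ℝ} (hM : ∀ i j, M i j = M j i)
    (hx : ∀ i, ∑ j, M i j * x j = 0) : M = fm e f (qf M e e) (qf M e f) (qf M f f) := by
  funext i j
  exact F.mat hM hx i j

end Fr

/-! ### Euler's relations on the sphere -/

theorem sum_xx {x : E 3} (hx : ‖x‖ = 1) : ∑ i, x i * x i = 1 := by
  have h := EuclideanSpace.norm_sq_eq x
  rw [hx] at h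
  simp only [Real.norm_eq_abs, sq_abs] at h
  rw [show (1 : ℝ) = 1 ^ 2 by norm_num, h]
  exact Finset.sum_congr rfl fun i _ => by ring

theorem x_pd {q : E 3 → ℝ} (hq : Q q) {x : E 3} (hx : ‖x‖ = 1) : ∑ i, x i * pd i q x = 0 := by
  rw [hq.hom.euler hq.sm (ne_zero_of_one hx)]
  simp

theorem hs_x {q : E 3 → ℝ} (hq : Q q) {x : E 3} (hx : ‖x‖ = 1) (i : Fin 3) :
    ∑ j, hs q i j x * x j = - pd i q x := by
  have h := (hq.hom.pd hq.sm i).euler (hq.sm.pd i) (ne_zero_of_one hx)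
  push_cast at h
  have e : ∑ j, hs q i j x * x j = ∑ j, x j * pd j (pd i q) x :=
    Finset.sum_congr rfl fun j _ => by
      rw [hs_symm hq.sm (ne_zero_of_one hx) i j, mul_comm]
      rfl
  rw [e, h]
  ring

namespace Dat

variable (D : Dat) {x : E 3} (hx : ‖x‖ = 1)

theorem qU : Q D.U := ⟨D.smU, D.homU⟩

include hx

theorem hs_x (i : Fin 3) : ∑ j, hs D.H i j x * x j = 0 := by
  have h := (D.homH.pd D.smH i).euler (D.smH.pd i) (ne_zero_of_one hx)
  push_cast at h
  have e : ∑ j, hs D.H i j x * x j = ∑ j, x j * pd j (pd i D.H) x :=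
    Finset.sum_congr rfl fun j _ => by
      rw [hs_symm D.smH (ne_zero_of_one hx) i j, mul_comm]
      rfl
  rw [e, h]
  ring

theorem pr_x (i : Fin 3) : ∑ j, pr x i j * x j = 0 := by
  have h := sum_xx hx
  have h2 : ∑ j, kd i j * x j = x i := by simp [kd]
  simp only [pr, Fin.sum_univ_three] at *
  linear_combination h2 - x i * h

theorem W_symm (i j : Fin 3) : D.W x i j = D.W x j i := by
  have hkd : kd i j = kd j i := by
    unfold kd
    simp only [eq_comm]
  unfold W pr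
  rw [hs_symm D.smH (ne_zero_of_one hx) i j, hkd]
  ring

theorem W_x (i : Fin 3) : ∑ j, D.W x i j * x j = 0 := by
  have h1 := D.hs_x hx i
  have h2 := pr_x hx i
  unfold W
  simp only [Fin.sum_univ_three] at *
  linear_combination h1 + D.U x * h2

omit hx in
theorem qf_W (v : Fin 3 → ℝ) (hv : ∑ i, x i * v i = 0) :
    qf (D.W x) v v = qf (fun i j => hs D.H i j x) v v + D.U x * ∑ i, v i ^ 2 := by
  have h2 : ∀ i, ∑ j, kd i j * v j = v i := by
    intro i
    simp [kd]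
  have h20 := h2 0
  have h21 := h2 1
  have h22 := h2 2
  simp only [qf, W, pr, Fin.sum_univ_three] at *
  linear_combination D.U x * (v 0 * h20 + v 1 * h21 + v 2 * h22) -
    D.U x * (x 0 * v 0 + x 1 * v 1 + x 2 * v 2) * hv

theorem W_pos (v : Fin 3 → ℝ) (hv : ∑ i, x i * v i = 0) (h0 : v ≠ 0) : 0 < qf (D.W x) v v := by
  rw [D.qf_W v hv]
  exact D.pos x hx v hv h0

/-- the entries of `W` in a frame -/
theorem W_frame : ∃ (e f : Fin 3 → ℝ) (a b c : ℝ), Fr (x : Fin 3 → ℝ) e f ∧ D.W x = fm e f a b c ∧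
    0 < a ∧ 0 < a * c - b ^ 2 := by
  obtain ⟨e, f, F⟩ := exists_fr (sum_xx hx)
  have hW := F.mat_eq (D.W_symm hx) (D.W_x hx)
  have hpos : ∀ m n : ℝ, (m ≠ 0 ∨ n ≠ 0) → 0 < qf (D.W x) e e * m ^ 2 +
      2 * qf (D.W x) e f * (m * n) + qf (D.W x) f f * n ^ 2 := by
    intro m n hmn
    have hee := F.ee
    have hff := F.ff
    have hef := F.ef
    have hxe := F.xe
    have hxf := F.xf
    have h1 : ∑ i, e i * (m * e i + n * f i) = m := by
      simp only [Fin.sum_univ_three] at *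
      linear_combination m * hee + n * hef
    have h2 : ∑ i, f i * (m * e i + n * f i) = n := by
      simp only [Fin.sum_univ_three] at *
      linear_combination m * hef + n * hff
    have h3 : ∑ i, x i * (m * e i + n * f i) = 0 := by
      simp only [Fin.sum_univ_three] at *
      linear_combination m * hxe + n * hxf
    have h4 := D.W_pos hx (fun i => m * e i + n * f i) h3 (by
      intro h
      have h' : ∀ i, m * e i + n * f i = 0 := fun i => congrFun h i
      simp only [h', mul_zero, Finset.sum_const_zero] at h1 h2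
      rcases hmn with hm | hn
      · exact hm h1.symm
      · exact hn h2.symm)
    rw [hW, Fr.qf_fm, h1, h2] at h4
    linarith
  refine ⟨e, f, _, _, _, F, hW, ?_, ?_⟩
  · have := hpos 1 0 (Or.inl one_ne_zero)
    linarith
  · have ha : 0 < qf (D.W x) e e := by
      have := hpos 1 0 (Or.inl one_ne_zero)
      linarith
    have h1 := hpos (qf (D.W x) e f) (-(qf (D.W x) e e)) (Or.inr (neg_ne_zero.2 ha.ne'))
    have h2 : qf (D.W x) e e * qf (D.W x) e f ^ 2 +
        2 * qf (D.W x) e f * (qf (D.W x) e f * -(qf (D.W x) e e)) +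
        qf (D.W x) f f * (-(qf (D.W x) e e)) ^ 2 =
        qf (D.W x) e e * (qf (D.W x) e e * qf (D.W x) f f - qf (D.W x) e f ^ 2) := by ring
    rw [h2] at h1
    exact (pos_iff_pos_of_mul_pos h1).1 ha

end Dat

theorem dt_pos (D : Dat) {x : E 3} (hx : ‖x‖ = 1) : 0 < D.dt x := by
  obtain ⟨e, f, a, b, c, F, hW, -, hd⟩ := D.W_frame hx
  unfold Dat.dt
  rw [hW, F.det_fm]
  exact hd

/-- the operator `L` in terms of tangential matrices -/
theorem L_alg {x g : Fin 3 → ℝ} {h n : Fin 3 → Fin 3 → ℝ} {U : ℝ} (hx : ∑ i, x i * x i = 1)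
    (hh : ∀ i j, h i j = h j i) (hhx : ∀ i, ∑ j, h i j * x j = 0)
    (hnx : ∀ i, ∑ j, n i j * x j = - g i) (hg : ∑ i, x i * g i = 0) :
    tr3 (fun i j => h i j + U * pr x i j) * tr3 (fun i j => n i j + g i * x j + x i * g j) -
      ip3 (fun i j => h i j + U * pr x i j) (fun i j => n i j + g i * x j + x i * g j) =
      tr3 h * tr3 n - (∑ i, ∑ j, h i j * n i j) + U * tr3 n := by
  have a0 := hhx 0
  have a1 := hhx 1
  have a2 := hhx 2
  have b0 := hnx 0
  have b1 := hnx 1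
  have b2 := hnx 2
  have h10 := hh 1 0
  have h20 := hh 2 0
  have h21 := hh 2 1
  simp only [tr3, ip3, pr, kd, Fin.sum_univ_three] at *
  simp only [show ((0 : Fin 3) = 1) = False by simp, show ((0 : Fin 3) = 2) = False by simp,
    show ((1 : Fin 3) = 0) = False by simp, show ((1 : Fin 3) = 2) = False by simp,
    show ((2 : Fin 3) = 0) = False by simp, show ((2 : Fin 3) = 1) = False by simp, if_true,
    if_false]
  rw [h10, h20, h21] at *
  linear_combination (2 * (h 0 0 + h 1 1 + h 2 2) + 3 * U) * hg -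
    U * (n 0 0 + n 1 1 + n 2 2) * hx - 2 * (g 0 * a0 + g 1 * a1 + g 2 * a2) +
    U * (x 0 * b0 + x 1 * b1 + x 2 * b2)

theorem tr_W (D : Dat) (q : E 3 → ℝ) (x : E 3) :
    D.L q x = tr3 (fun i j => hs D.H i j x) * tr3 (fun i j => hs q i j x) -
      (∑ i, ∑ j, hs D.H i j x * hs q i j x) + D.U x * tr3 (fun i j => hs q i j x) +
      ∑ i, pd i D.U x * pd i q x := rfl

theorem L_eq (D : Dat) {q : E 3 → ℝ} (hq : Q q) {x : E 3} (hx : ‖x‖ = 1) :
    D.L q x = tr3 (D.W x) * tr3 (Zb q x) - ip3 (D.W x) (Zb q x) +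
      ∑ i, D.gU x i * pd i q x := by
  have h := L_alg (x := x) (g := fun i => pd i q x) (h := fun i j => hs D.H i j x)
    (n := fun i j => hs q i j x) (U := D.U x) (sum_xx hx)
    (fun i j => hs_symm D.smH (ne_zero_of_one hx) i j) (D.hs_x hx) (hs_x hq hx) (x_pd hq hx)
  rw [tr_W, ← h]
  rfl

/-! ### the contact matrix -/

theorem Zb_symm {q : E 3 → ℝ} (hq : Q q) {x : E 3} (hx : ‖x‖ = 1) (i j : Fin 3) :
    Zb q x i j = Zb q x j i := by
  unfold Zb
  rw [hs_symm hq.sm (ne_zero_of_one hx) i j]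
  ring

theorem Zb_x {q : E 3 → ℝ} (hq : Q q) {x : E 3} (hx : ‖x‖ = 1) (i : Fin 3) :
    ∑ j, Zb q x i j * x j = 0 := by
  have h1 := hs_x hq hx i
  have h2 := sum_xx hx
  have h3 := x_pd hq hx
  unfold Zb
  simp only [Fin.sum_univ_three] at *
  linear_combination h1 + pd i q x * h2 + x i * h3

theorem qf_pos_real {x e f : Fin 3 → ℝ} (F : Fr x e f) {a b c : ℝ}
    (h : ∀ v : Fin 3 → ℝ, 0 ≤ qf (fm e f a b c) v v) (m n : ℝ) :
    0 ≤ a * m ^ 2 + 2 * b * (m * n) + c * n ^ 2 := by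
  have hee := F.ee
  have hff := F.ff
  have hef := F.ef
  have h1 : ∑ i, e i * (m * e i + n * f i) = m := by
    simp only [Fin.sum_univ_three] at *
    linear_combination m * hee + n * hef
  have h2 : ∑ i, f i * (m * e i + n * f i) = n := by
    simp only [Fin.sum_univ_three] at *
    linear_combination m * hef + n * hff
  have h4 := h (fun i => m * e i + n * f i)
  rw [Fr.qf_fm, h1, h2] at h4
  linarith

theorem key_pt (D : Dat) {q : E 3 → ℝ} (hq : Q q) {x : E 3} (hx : ‖x‖ = 1) (hg : gsq q x < 4)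
    (hB : ∀ v : Fin 3 → ℝ, 0 ≤ qf (Bq q x) v v) :
    4 * D.dt x * det2 (Bq q x) ≤ (D.L q x + D.Phi x) ^ 2 := by
  obtain ⟨e, f, a, b, c, F, hW, ha, hd⟩ := D.W_frame hx
  obtain ⟨p, r, s, hZ⟩ : ∃ p r s, Zb q x = fm e f p r s :=
    ⟨_, _, _, F.mat_eq (Zb_symm hq hx) (Zb_x hq hx)⟩
  obtain ⟨g1, hg1⟩ : ∃ y, y = ∑ i, e i * pd i q x := ⟨_, rfl⟩
  obtain ⟨g2, hg2⟩ : ∃ y, y = ∑ i, f i * pd i q x := ⟨_, rfl⟩
  obtain ⟨u1, hu1⟩ : ∃ y, y = ∑ i, e i * D.gU x i := ⟨_, rfl⟩
  obtain ⟨u2, hu2⟩ : ∃ y, y = ∑ i, f i * D.gU x i := ⟨_, rfl⟩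
  have hgv : ∀ i, pd i q x = g1 * e i + g2 * f i := by
    intro i
    rw [hg1, hg2]
    exact F.vec' (v := fun i => pd i q x) (x_pd hq hx) i
  have huv : ∀ i, D.gU x i = u1 * e i + u2 * f i := by
    intro i
    rw [hu1, hu2]
    exact F.vec' (v := D.gU x) (x_pd D.qU hx) i
  obtain ⟨C, hCd⟩ : ∃ C, C = cc q x := ⟨_, rfl⟩
  have hC : 0 < C := by
    rw [hCd]
    exact Real.sqrt_pos.2 (by linarith)
  have hC2 : C ^ 2 = 1 - gsq q x / 4 := by
    rw [hCd]
    exact Real.sq_sqrt (by linarith)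
  have hgs : gsq q x = g1 ^ 2 + g2 ^ 2 := by
    have hee := F.ee
    have hff := F.ff
    have hef := F.ef
    unfold gsq
    simp only [hgv, Fin.sum_univ_three] at *
    linear_combination g1 ^ 2 * hee + g2 ^ 2 * hff + 2 * g1 * g2 * hef
  have hgC : g1 ^ 2 + g2 ^ 2 = 4 * (1 - C ^ 2) := by
    rw [hC2, ← hgs]
    ring
  have hC1 : C ≤ 1 := by
    have : C ^ 2 ≤ 1 ^ 2 := by nlinarith [sq_nonneg g1, sq_nonneg g2]
    exact le_of_sq_le_sq this zero_le_one
  have hBf : Bq q x = fm e f (p + (2 * C ^ 2 - 1) / C + g1 ^ 2 / (4 * C))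
      (r + g1 * g2 / (4 * C)) (s + (2 * C ^ 2 - 1) / C + g2 ^ 2 / (4 * C)) := by
    funext i j
    have h1 : pr x i j = fm e f 1 0 1 i j := by rw [F.pr_eq]
    unfold Bq
    rw [hZ, h1, ← hCd, hgv i, hgv j]
    unfold fm
    ring
  have hL : D.L q x = (a + c) * (p + s) - (a * p + 2 * (b * r) + c * s) + (u1 * g1 + u2 * g2) := by
    rw [L_eq D hq hx, hW, hZ, F.tr_fm, F.tr_fm, F.ip_fm]
    have hee := F.ee
    have hff := F.ff
    have hef := F.ef
    simp only [hgv, huv, Fin.sum_univ_three] at *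
    linear_combination u1 * g1 * hee + u2 * g2 * hff + (u1 * g2 + u2 * g1) * hef
  have hA : D.A x = fm e f c (-b) a := by
    funext i j
    have h1 : pr x i j = fm e f 1 0 1 i j := by rw [F.pr_eq]
    unfold Dat.A
    rw [hW, F.tr_fm, h1]
    unfold fm
    ring
  have hdt : D.dt x = a * c - b ^ 2 := by
    unfold Dat.dt
    rw [hW, F.det_fm]
  have hPhi : D.Phi x = a + c + (c * u1 ^ 2 - 2 * b * (u1 * u2) + a * u2 ^ 2) / (a * c - b ^ 2) := by
    unfold Dat.Phi
    rw [hdt, hA, hW, F.tr_fm, Fr.qf_fm, ← hu1, ← hu2]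
    ring
  rw [hBf] at hB
  rw [hdt, hBf, F.det_fm, hL, hPhi]
  exact plane_ineq ha hd hC hC1 hgC rfl rfl rfl rfl (qf_pos_real F hB)

end Vale.Agent.P366.H353
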