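import Vale.Agent.P366.H375.X5b

/-! Kerr-Schild exteriors: the energy flux. -/

open MeasureTheory Metric Filter Topology Set
open scoped ContDiff ENNReal

noncomputable section
namespace Vale.Agent.P366.KS.X5

open Vale.Agent.P366 (pd E)
open Vale.Agent.P366.H353
open Vale.Agent.P366.H296 (gr Hp)
open Vale.Agent.P366.H296.KSx
open Vale.Agent.P366.H375 (dl HP)

variable {C : Cone} {lam f : E 3 → ℝ} {V : E 4 → ℝ} {D : Stmt.Exterior 3} {x y : E 3} {s t : ℝ}

/-- twice the density of the energy flux -/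
def dens2 (g : Stmt.Field 3) (y : E 3) : ℝ :=
  ∑ i, (∑ j, (Stmt.pd j (fun z => g z i j) y - Stmt.pd i (fun z => g z j j) y)) * (y i / ‖y‖)

lemma dens2_far (hS : IsSlice C lam V f D) (hV : ∀ p ∈ Region lam f D, ContDiffAt ℝ ∞ V p) :
    ∃ R0 : ℝ, 1 ≤ R0 ∧ ∀ y : E 3, R0 < ‖y‖ → dens2 D.g y =
      ∑ i, (((∑ j, pd j (vf V) y * pd j lam y) + vf V y * lap lam y) * pd i lam y -
        pd i (vf V) y) * (y i / ‖y‖) := by
  obtain ⟨R0, hR0, h⟩ := g_far hS
  obtain ⟨R1, hR1, h'⟩ := vf_cd hS hV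
  refine ⟨max R0 R1, hR0.trans (le_max_left _ _), fun y hy => ?_⟩
  have hy0 : R0 < ‖y‖ := (le_max_left _ _).trans_lt hy
  have hy1 : R1 < ‖y‖ := (le_max_right _ _).trans_lt hy
  obtain ⟨-, hF, hu, -⟩ := h y hy0
  have hl := hS.smL y hF.le
  have hv := (h' y hy1).2.1
  -- derivatives of the metric
  have hg : ∀ k i j, Stmt.pd k (fun z => D.g z i j) y = pd k (vf V) y * (pd i lam y * pd j lam y) +
      vf V y * (hs lam k i y * pd j lam y + pd i lam y * hs lam k j y) := by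
    intro k i j
    have hev : (fun z => D.g z i j) =ᶠ[𝓝 y]
        fun z => kd i j + vf V z * (Stmt.pd i lam z * Stmt.pd j lam z) := by
      have hld : ∀ᶠ z in 𝓝 y, DifferentiableAt ℝ lam z := by
        have h1 : ContDiffAt ℝ 1 lam y := hl.of_le (by exact_mod_cast le_top)
        filter_upwards [h1.eventually (by simp)] with z hz using hz.differentiableAt one_ne_zero
      filter_upwards [(isOpen_lt continuous_const continuous_norm).mem_nhds hy0, hld] with z hz hz'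
      rw [(h z hz).2.2.2 i j, X2.stmt_pd hz', X2.stmt_pd hz']
    have h1 : HP k (fun z => kd i j + vf V z * (Stmt.pd i lam z * Stmt.pd j lam z))
        (0 + (Stmt.pd k (vf V) y * (Stmt.pd i lam y * Stmt.pd j lam y) +
          vf V y * (Stmt.pd k (Stmt.pd i lam) y * Stmt.pd j lam y +
            Stmt.pd i lam y * Stmt.pd k (Stmt.pd j lam) y))) y :=
      (HP.const k _ y).add ((HP.of_cd hv).mul ((HP.of_cd (H375.cd_pd hl i)).mul
        (HP.of_cd (H375.cd_pd hl j))))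
    rw [H375.pd_congr hev, h1.pd, X2.stmt_pd' hv, X2.stmt_pd' hl, X2.stmt_pd' hl, X2.stmt_pd2 hl,
      X2.stmt_pd2 hl]
    unfold H353.hs
    ring
  -- the eikonal equation, differentiated
  have he : ∀ i, ∑ j, hs lam i j y * pd j lam y = 0 := by
    obtain ⟨x, s, hx, hs, e⟩ := (mem_iff hS).1 hF.le
    intro i
    have h1 := hs_lam_mul_x hS hx hs i
    rw [e] at h1
    rw [← h1]
    refine Finset.sum_congr rfl fun j _ => ?_
    have h2 := pd_lam_Y hS hx hs j
    rw [e] at h2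
    rw [h2]
  have hsy : ∀ i j, hs lam i j y = hs lam j i y := fun i j => by
    have := H375.pd_symm hl i j
    rwa [X2.stmt_pd2 hl, X2.stmt_pd2 hl] at this
  unfold dens2
  refine Finset.sum_congr rfl fun i _ => ?_
  congr 1
  have e1 : ∀ j, Stmt.pd j (fun z => D.g z i j) y - Stmt.pd i (fun z => D.g z j j) y =
      pd i lam y * (pd j (vf V) y * pd j lam y) + vf V y * (hs lam i j y * pd j lam y) +
      (vf V y * pd i lam y) * hs lam j j y - pd i (vf V) y * (pd j lam y * pd j lam y) -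
      2 * vf V y * (hs lam i j y * pd j lam y) := by
    intro j
    rw [hg, hg, hsy j i]
    ring
  simp only [e1, Finset.sum_add_distrib, Finset.sum_sub_distrib, ← Finset.mul_sum, he, hu]
  have e2 : ∑ j, hs lam j j y = lap lam y := rfl
  rw [e2]
  ring

lemma theta_sq {y : E 3} (hy : 0 < ‖y‖) : ∑ i, (y i / ‖y‖) * (y i / ‖y‖) = 1 := by
  have h := EuclideanSpace.norm_sq_eq y
  simp only [Real.norm_eq_abs, sq_abs] at h
  have e : ∑ i, (y i / ‖y‖) * (y i / ‖y‖) = (∑ i, y i ^ 2) / ‖y‖ ^ 2 := by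
    rw [Finset.sum_div]
    exact Finset.sum_congr rfl fun i _ => by ring
  rw [e, ← h, div_self (by positivity)]

lemma N_oc (hS : IsSlice C lam V f D) (i : Fin 3) : Oc 0 fun y => pd i lam y :=
  (((dlt_oc hS i).mono zero_le_one).add (Oc.dir i)).congr (R := 0) fun y _ => by ring

lemma H_oc (hS : IsSlice C lam V f D) : Oc 1 fun y => lap lam y :=
  (((eta_oc hS).mono one_le_two).add ((Oc.one_div_norm).cmul 2)).congr (R := 0) fun y _ => by ring

/-- the error term of the energy flux -/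
def errE (V : E 4 → ℝ) (lam : E 3 → ℝ) (y : E 3) : ℝ :=
  ∑ j, pd j (vf V) y * (pd j lam y - y j / ‖y‖) +
    (∑ j, pd j (vf V) y * pd j lam y) * (∑ i, (pd i lam y - y i / ‖y‖) * (y i / ‖y‖)) +
    vf V y * (lap lam y - 2 / ‖y‖) +
    (vf V y * lap lam y) * ∑ i, (pd i lam y - y i / ‖y‖) * (y i / ‖y‖)

lemma errE_oc (hS : IsSlice C lam V f D) {q : ℝ}
    (hA : ∀ i j k l, Stmt.BigO q (fun x => D.g x i j - if i = j then 1 else 0) ∧
    Stmt.BigO (q + 1) (Stmt.pd k fun x => D.g x i j) ∧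
    Stmt.BigO (q + 1 + 1) (Stmt.pd l (Stmt.pd k fun x => D.g x i j)) ∧
    Stmt.BigO (q + 1) (fun x => D.K x i j) ∧
    Stmt.BigO (q + 1 + 1) (Stmt.pd k fun x => D.K x i j)) : Oc (q + 2) (errE V lam) := by
  have h1 : Oc 1 fun y : E 3 => ∑ i, (pd i lam y - y i / ‖y‖) * (y i / ‖y‖) :=
    Oc.sum _ fun i => (dlt_oc hS i).mul' (Oc.dir i) (by linarith)
  have h2 : Oc (q + 2) fun y : E 3 => ∑ j, pd j (vf V) y * (pd j lam y - y j / ‖y‖) :=
    Oc.sum _ fun j => (dvf_oc hS hA j).mul' (dlt_oc hS j) (by linarith)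
  have h3 : Oc (q + 1) fun y : E 3 => ∑ j, pd j (vf V) y * pd j lam y :=
    Oc.sum _ fun j => (dvf_oc hS hA j).mul' (N_oc hS j) (by linarith)
  have h4 : Oc (q + 2) fun y : E 3 => vf V y * (lap lam y - 2 / ‖y‖) :=
    (vf_oc hS hA).mul' (eta_oc hS) (by linarith)
  have h5 : Oc (q + 1) fun y : E 3 => vf V y * lap lam y := (vf_oc hS hA).mul' (H_oc hS) le_rfl
  exact ((h2.add (h3.mul' h1 (by linarith))).add h4).add (h5.mul' h1 (by linarith))

lemma dens2_eq (hS : IsSlice C lam V f D) (hV : ∀ p ∈ Region lam f D, ContDiffAt ℝ ∞ V p) :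
    ∃ R0 : ℝ, 1 ≤ R0 ∧ ∀ y : E 3, R0 < ‖y‖ →
      dens2 D.g y = 2 * (vf V y * (1 / ‖y‖)) + errE V lam y := by
  obtain ⟨R0, hR0, h⟩ := dens2_far hS hV
  refine ⟨R0, hR0, fun y hy => ?_⟩
  have hy0 : 0 < ‖y‖ := by linarith
  have ht := theta_sq hy0
  rw [h y hy]
  unfold errE
  simp only [Fin.sum_univ_three] at *
  generalize y 0 / ‖y‖ = t0 at *
  generalize y 1 / ‖y‖ = t1 at *
  generalize y 2 / ‖y‖ = t2 at *
  generalize pd 0 lam y = n0
  generalize pd 1 lam y = n1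
  generalize pd 2 lam y = n2
  generalize pd 0 (vf V) y = v0
  generalize pd 1 (vf V) y = v1
  generalize pd 2 (vf V) y = v2
  generalize lap lam y = H
  generalize vf V y = v
  have e : 2 / ‖y‖ = 2 * (1 / ‖y‖) := by ring
  rw [e]
  generalize 1 / ‖y‖ = w
  linear_combination ((v0 * n0 + v1 * n1 + v2 * n2) + v * H) * ht

lemma S2_sphInt (R : ℝ) (h : E 3 → ℝ) : Stmt.sphInt R h = R ^ 2 * S2 (fun x => h (R • x)) := by
  unfold Stmt.sphInt Stmt.sph S2
  rw [Vale.Agent.P366.vol_eq]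

lemma omega_three : Stmt.omega 3 = 4 * Real.pi := by
  unfold Stmt.omega
  rw [S2_sphInt, S2_const]
  ring

/-- the energy is the limit of `2 R ∫ V(0, R x) / 16 π` -/
theorem flux_energy (hS : IsSlice C lam V f D) (hV : ∀ p ∈ Region lam f D, ContDiffAt ℝ ∞ V p)
    (hAF : D.IsAF) {m : ℝ} (hm : D.IsEnergy m) :
    Tendsto (fun R : ℝ => 2 * R * S2 (fun x => vf V (R • x))) atTop (𝓝 (16 * Real.pi * m)) := by
  obtain ⟨q, hq, hA⟩ := hAF
  have hq2 : 2 < q + 2 := by
    have : ((3 : ℕ) : ℝ) / 2 - 1 < q := hq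
    norm_num at this
    linarith
  have hE := errE_oc hS hA
  have hv : Oc q (vf V) := vf_oc hS hA
  obtain ⟨R0, hR0, h0⟩ := dens2_eq hS hV
  obtain ⟨R1, hR1, h1⟩ := hE.cont
  obtain ⟨R2, hR2, h2⟩ := (hv.mul' Oc.one_div_norm (le_refl (q + 1))).cont
  have h3 := hE.tail hq2
  have h4 : Tendsto (fun R => 16 * Real.pi * Stmt.flx (fun i x => (∑ j,
      (Stmt.pd j (fun y => D.g y i j) x - Stmt.pd i (fun y => D.g y j j) x)) / 2) R) atTop
      (𝓝 (16 * Real.pi * m)) := hm.const_mul _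
  have h5 := h4.sub h3
  rw [sub_zero] at h5
  refine h5.congr' ?_
  filter_upwards [eventually_gt_atTop R0, eventually_ge_atTop R1, eventually_ge_atTop R2]
    with R a0 a1 a2
  have hRp : 0 < R := by linarith
  have e1 : 16 * Real.pi * Stmt.flx (fun i x => (∑ j,
      (Stmt.pd j (fun y => D.g y i j) x - Stmt.pd i (fun y => D.g y j j) x)) / 2) R =
      R ^ 2 * S2 (fun x => dens2 D.g (R • x)) := by
    unfold Stmt.flx
    rw [S2_sphInt, omega_three]
    have e2 : S2 (fun x => ∑ i, (∑ j, (Stmt.pd j (fun y => D.g y i j) (R • x) -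
        Stmt.pd i (fun y => D.g y j j) (R • x))) / 2 * ((R • x) i / Stmt.len (R • x))) =
        1 / 2 * S2 (fun x => dens2 D.g (R • x)) := by
      rw [← S2_cmul]
      refine S2_congr fun x _ => ?_
      unfold dens2 Stmt.len
      rw [Finset.mul_sum]
      exact Finset.sum_congr rfl fun i _ => by ring
    rw [e2]
    have hp : Real.pi ≠ 0 := Real.pi_ne_zero
    push_cast
    field_simp
    ring
  rw [e1]
  have e3 : S2 (fun x => dens2 D.g (R • x)) =
      2 * S2 (fun x => vf V (R • x) * (1 / ‖R • x‖)) + S2 (fun x => errE V lam (R • x)) := by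
    rw [← S2_cmul, ← S2_add (cK 2 (h2 R a2)) (h1 R a1)]
    refine S2_congr fun x hx => ?_
    have hn : ‖R • x‖ = R := by
      rw [norm_smul, hx, mul_one, Real.norm_eq_abs, abs_of_pos hRp]
    exact h0 _ (by rw [hn]; exact a0)
  have e4 : S2 (fun x => vf V (R • x) * (1 / ‖R • x‖)) = 1 / R * S2 (fun x => vf V (R • x)) := by
    rw [← S2_cmul]
    refine S2_congr fun x hx => ?_
    have hn : ‖R • x‖ = R := by
      rw [norm_smul, hx, mul_one, Real.norm_eq_abs, abs_of_pos hRp]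
    rw [hn]
    ring
  rw [e3, e4]
  field_simp
  ring

end Vale.Agent.P366.KS.X5
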