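import Vale.Agent.P366.H375.X2f

/-! The boundary of a Kerr-Schild exterior is weakly future trapped: the pointwise inequality. -/

open MeasureTheory Metric Filter Topology Set
open scoped ContDiff ENNReal

noncomputable section
namespace Vale.Agent.P366.KS

open Vale.Agent.P366 (pd E)
open Vale.Agent.P366.H353
open Vale.Agent.P366.H375 (dl HP)

variable {C : Cone} {lam f : E 3 → ℝ} {V : E 4 → ℝ} {D : Stmt.Exterior 3} {x y : E 3} {s t : ℝ}

namespace X2

lemma thl_alg {A : Fin 3 → Fin 3 → ℝ} {f u : Fin 3 → ℝ} {S c : ℝ} (hA : ∀ i j, A i j = A j i)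
    (hfu : ∑ i, f i * u i = S - 1) (huu : ∑ i, u i * u i = 1) (hff : ∑ i, f i * f i = 1 - c)
    (hS : S ≠ 0) :
    (∑ i, ∑ j, A i j * pr u i j) + 2 * (∑ i, ∑ j, A i j * (-(f i - (S - 1) * u i) / S) * u j) +
      (∑ i, (-(f i - (S - 1) * u i) / S) ^ 2) * (∑ i, ∑ j, A i j * u i * u j) =
    ∑ i, ∑ j, (dl i j - c / S ^ 2 * (u i * u j) - (u i * f j + f i * u j) / S) * A i j := by
  obtain ⟨q, hq⟩ : ∃ q, q = ∑ i, ∑ j, A i j * u i * u j := ⟨_, rfl⟩
  obtain ⟨r, hr⟩ : ∃ r, r = ∑ i, ∑ j, A i j * f i * u j := ⟨_, rfl⟩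
  obtain ⟨t, ht⟩ : ∃ t, t = ∑ i, ∑ j, dl i j * A i j := ⟨_, rfl⟩
  have h1 : ∑ i, ∑ j, A i j * pr u i j = t - q := by
    rw [ht, hq, ← Finset.sum_sub_distrib]
    refine Finset.sum_congr rfl fun i _ => ?_
    rw [← Finset.sum_sub_distrib]
    refine Finset.sum_congr rfl fun j _ => ?_
    unfold pr kd dl
    ring
  have h2 : ∑ i, ∑ j, A i j * (-(f i - (S - 1) * u i) / S) * u j = -(r - (S - 1) * q) / S := by
    rw [hr, hq, Finset.mul_sum, ← Finset.sum_sub_distrib, ← Finset.sum_neg_distrib, Finset.sum_div]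
    refine Finset.sum_congr rfl fun i _ => ?_
    rw [Finset.mul_sum, ← Finset.sum_sub_distrib, ← Finset.sum_neg_distrib, Finset.sum_div]
    exact Finset.sum_congr rfl fun j _ => by ring
  have h3 : ∑ i, (-(f i - (S - 1) * u i) / S) ^ 2 = ((1 - c) - (S - 1) ^ 2) / S ^ 2 := by
    have e : ∑ i, (-(f i - (S - 1) * u i) / S) ^ 2 =
        ((∑ i, f i * f i) - 2 * (S - 1) * (∑ i, f i * u i) + (S - 1) ^ 2 * ∑ i, u i * u i) /
          S ^ 2 := by
      rw [Finset.mul_sum, Finset.mul_sum, ← Finset.sum_sub_distrib, ← Finset.sum_add_distrib,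
        Finset.sum_div]
      exact Finset.sum_congr rfl fun i _ => by ring
    rw [e, hfu, huu, hff]
    ring
  have h4 : ∑ i, ∑ j, A i j * u i * f j = r := by
    rw [hr, Finset.sum_comm]
    exact Finset.sum_congr rfl fun i _ => Finset.sum_congr rfl fun j _ => by rw [hA j i]; ring
  have h5 : ∑ i, ∑ j, (dl i j - c / S ^ 2 * (u i * u j) - (u i * f j + f i * u j) / S) * A i j =
      t - c / S ^ 2 * q - ((∑ i, ∑ j, A i j * u i * f j) + r) / S := by
    rw [ht, hq, hr, ← Finset.sum_add_distrib, Finset.sum_div, Finset.mul_sum,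
      ← Finset.sum_sub_distrib, ← Finset.sum_sub_distrib]
    refine Finset.sum_congr rfl fun i _ => ?_
    rw [← Finset.sum_add_distrib, Finset.sum_div, Finset.mul_sum,
      ← Finset.sum_sub_distrib, ← Finset.sum_sub_distrib]
    exact Finset.sum_congr rfl fun j _ => by ring
  rw [h1, h2, h3, h5, h4, ← hq]
  field_simp
  ring

lemma cd_pt (hf : ContDiffAt ℝ ∞ f y) : ContDiffAt ℝ ∞ (fun z => pt (f z) z) y := by
  rw [contDiffAt_euclidean]
  intro i
  refine Fin.cases ?_ (fun k => ?_) i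
  · exact hf
  · have h := (contDiffAt_piLp_apply (p := 2) (i := k) : ContDiffAt ℝ ∞ (fun z : E 3 => z k) y)
    exact h

/-- the point data -/
def ptd (hS : IsSlice C lam V f D) (hy : 0 ≤ D.F y) : H375.Pt 3 where
  f i := Stmt.pd i f y
  u i := Stmt.pd i lam y
  v := V (pt (f y) y)
  S := 1 + ∑ i, Stmt.pd i f y * Stmt.pd i lam y
  c := 1 - ∑ i, Stmt.pd i f y * Stmt.pd i f y
  s := √(1 - ∑ i, Stmt.pd i f y * Stmt.pd i f y +
      V (pt (f y) y) * (1 + ∑ i, Stmt.pd i f y * Stmt.pd i lam y) ^ 2)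
  uu := by
    rw [← gsq_lam' hS hy]
    exact Finset.sum_congr rfl fun i _ => by rw [stmt_pd' (hS.smL y hy)]; ring
  fu := by ring
  ff := by ring
  hs := by
    refine Real.sq_sqrt (le_of_lt ?_)
    have h := det_indG_pos hS hy
    unfold dL at h
    simpa only [stmt_pd' (hS.smL y hy), stmt_pd' (hS.smf y hy), sq, mul_comm] using h
  s0 := by
    refine Real.sqrt_pos.2 ?_
    have h := det_indG_pos hS hy
    unfold dL at h
    simpa only [stmt_pd' (hS.smL y hy), stmt_pd' (hS.smf y hy), sq, mul_comm] using h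
  S0 := by
    have h := dL_pos hS hy
    unfold dL at h
    simpa only [stmt_pd' (hS.smL y hy), stmt_pd' (hS.smf y hy), mul_comm] using h

/-- the closed form of the metric, as a field -/
def clG (lam f : E 3 → ℝ) (V : E 4 → ℝ) : Stmt.Field 3 := fun z i j =>
  dl i j - Stmt.pd i f z * Stmt.pd j f z +
    V (pt (f z) z) * (Stmt.pd i f z + Stmt.pd i lam z) * (Stmt.pd j f z + Stmt.pd j lam z)

lemma clG_cd (hl : ContDiffAt ℝ ∞ lam y) (hf : ContDiffAt ℝ ∞ f y)
    (hV : ContDiffAt ℝ ∞ (fun z => V (pt (f z) z)) y) (i j : Fin 3) :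
    ContDiffAt ℝ ∞ (fun z => clG lam f V z i j) y :=
  (contDiffAt_const.sub ((H375.cd_pd hf i).mul (H375.cd_pd hf j))).add
    ((hV.mul ((H375.cd_pd hf i).add (H375.cd_pd hl i))).mul
      ((H375.cd_pd hf j).add (H375.cd_pd hl j)))

end X2

open X2 in
/-- the boundary is weakly future trapped: `θ_ℓ ≤ V Δλ` -/
theorem trapped_thl (hS : IsSlice C lam V f D) (hV : ∀ p ∈ Region lam f D, ContDiffAt ℝ ∞ V p)
    (hT : D.Trapped) (hx : ‖x‖ = 1) :
    thl lam f (Y C.H x (C.U x)) ≤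
      V (pt (- C.U x) (Y C.H x (C.U x))) * lap lam (Y C.H x (C.U x)) := by
  obtain ⟨hfb, hFb⟩ := f_bdr hS hx
  obtain ⟨r, b, hr0, hpF, hpFF⟩ := compare hS hx
  have hux : ∀ i, pd i lam (Y C.H x (C.U x)) = x i := fun i => pd_lam_Y hS hx (le_refl _) i
  have hlx : ∀ i, ∑ k, H353.hs lam i k (Y C.H x (C.U x)) * x k = 0 := fun i =>
    hs_lam_mul_x hS hx (le_refl _) i
  rw [← hfb]
  generalize Y C.H x (C.U x) = y at *
  have hy : 0 ≤ D.F y := hFb.ge
  have hl := hS.smL y hy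
  have hf := hS.smf y hy
  have hVy : ContDiffAt ℝ ∞ V (pt (f y) y) := hV _ (mem_region hS hy)
  have hVf : ContDiffAt ℝ ∞ (fun z => V (pt (f z) z)) y :=
    ContDiffAt.comp (g := V) (f := fun z => pt (f z) z) y hVy (cd_pt hf)
  have hJ : H375.Jet (clG lam f V) D.F f lam (fun z => V (pt (f z) z)) y (ptd hS hy) r b :=
    { cf := hf
      cl := hl
      cv := hVf
      r0 := hr0
      pF := fun i => hpF i
      pFF := fun i j => hpFF i j
      eik := fun i => by
        show ∑ j, Stmt.pd i (Stmt.pd j lam) y * Stmt.pd j lam y = 0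
        rw [← hlx i]
        exact Finset.sum_congr rfl fun j _ => by rw [stmt_pd2 hl, stmt_pd' hl, hux]; rfl
      hg := fun i j => Eventually.of_forall fun z => rfl
      pf := fun i => rfl
      pu := fun i => rfl
      pv := rfl }
  have hθ : Stmt.thetaPlus (clG lam f V) D.K D.F y ≤ 0 := by
    rw [← H375.thetaPlus_congr (g := D.g) (K := D.K) (K' := D.K)]
    · exact hT y hFb
    · intro i j
      rw [hS.met y hy i j, X2.indG_eq]
      rfl
    · intro i j
      rfl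
    · intro i j k
      refine H375.pd_eq_of_eqOn D.dom.1 D.dom.2.1 (fun z hz => ?_) hy
        (((D.smooth i j).1.contDiffAt).differentiableAt (by simp))
        ((clG_cd hl hf hVf i j).differentiableAt (by simp)) k
      rw [hS.met z hz i j, X2.indG_eq]
      rfl
  have hg1 : ∑ i, pd i lam y ^ 2 = 1 := gsq_lam' hS hy
  have hg2 : ∀ i, ∑ j, H353.hs lam i j y * pd j lam y = 0 := fun i => by
    rw [← hlx i]
    exact Finset.sum_congr rfl fun j _ => by rw [hux]
  have hg3 : ∑ i, Stmt.pd i lam y * Stmt.pd i lam y = 1 := (ptd hS hy).uu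
  obtain ⟨Q, hQ⟩ : ∃ Q, Q = pd 0 V (pt (f y) y) +
      ∑ k : Fin 3, Stmt.pd k f y * pd k.succ V (pt (f y) y) -
        V (pt (f y) y) * (1 + ∑ k, Stmt.pd k f y * Stmt.pd k lam y) *
        (- pd 0 V (pt (f y) y) + ∑ k : Fin 3, Stmt.pd k lam y * pd k.succ V (pt (f y) y)) :=
    ⟨_, rfl⟩
  have hK : ∀ i j, D.K y i j = (Stmt.pd i (Stmt.pd j f) y - (ptd hS hy).v * (ptd hS hy).S *
      Stmt.pd i (Stmt.pd j lam) y +
      ((-((ptd hS hy).S / 2) * cot f y (fun a => pd a V (pt (f y) y)) i +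
        Q / 4 * (ptd hS hy).F i) * (ptd hS hy).F j +
      (ptd hS hy).F i * (-((ptd hS hy).S / 2) * cot f y (fun a => pd a V (pt (f y) y)) j +
        Q / 4 * (ptd hS hy).F j))) / (ptd hS hy).s := by
    intro i j
    rw [hS.sff y hy i j, X2.indK_eq hl hg1 hg2 hVy i j, X2.lapse_eq V f hg3, ← hQ]
    have e1 : (ptd hS hy).v = V (pt (f y) y) := rfl
    have e2 : (ptd hS hy).S = 1 + ∑ i, Stmt.pd i f y * Stmt.pd i lam y := rfl
    have e3 : ∀ i, (ptd hS hy).F i = Stmt.pd i f y + Stmt.pd i lam y := fun i => rfl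
    have e4 : (ptd hS hy).s = √(1 - ∑ i, Stmt.pd i f y * Stmt.pd i f y +
      V (pt (f y) y) * (1 + ∑ i, Stmt.pd i f y * Stmt.pd i lam y) ^ 2) := rfl
    rw [e3, e3, ← e4, e1, ← e2]
    ring
  have hth := hJ.theta hK
  rw [hth] at hθ
  have hs0 := (ptd hS hy).s0
  have hS0 := (ptd hS hy).S0
  have h1 := nonpos_of_mul_nonpos_right hθ (div_pos hS0 hs0)
  have hL : ∑ i, Stmt.pd i (Stmt.pd i lam) y = lap lam y := by
    unfold lap
    exact Finset.sum_congr rfl fun i _ => by rw [stmt_pd2 hl]; rfl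
  rw [hL] at h1
  have hct : (ptd hS hy).ct (fun i j => Stmt.pd i (Stmt.pd j f) y) =
      (∑ i, ∑ j, hs f i j y * pr (fun k => pd k lam y) i j) +
        2 * (∑ i, ∑ j, hs f i j y * bv lam f i y * pd j lam y) +
        (∑ i, bv lam f i y ^ 2) * ∑ i, ∑ j, hs f i j y * pd i lam y * pd j lam y := by
    have h2 := thl_alg (A := fun i j => Stmt.pd i (Stmt.pd j f) y) (f := (ptd hS hy).f)
      (u := (ptd hS hy).u) (S := (ptd hS hy).S) (c := (ptd hS hy).c)
      (fun i j => H375.pd_symm hf i j) (ptd hS hy).fu (ptd hS hy).uu (ptd hS hy).ff hS0.ne'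
    unfold H375.Pt.ct
    refine Eq.trans h2.symm ?_
    have e1 : ∀ i j, Stmt.pd i (Stmt.pd j f) y = hs f i j y := fun i j => by
      rw [stmt_pd2 hf]; rfl
    have e2 : ∀ i, (ptd hS hy).u i = pd i lam y := fun i => stmt_pd' hl i
    have e3 : ∀ i, (ptd hS hy).f i = pd i f y := fun i => stmt_pd' hf i
    have e4 : (ptd hS hy).S = 1 + dL lam f y := by
      show 1 + ∑ i, Stmt.pd i f y * Stmt.pd i lam y = _
      unfold dL
      congr 1
      exact Finset.sum_congr rfl fun i _ => by rw [stmt_pd' hf, stmt_pd' hl]; ring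
    have e5 : (ptd hS hy).u = fun k => pd k lam y := funext e2
    have e6 : ∀ i, (-((ptd hS hy).f i - ((ptd hS hy).S - 1) * (ptd hS hy).u i) / (ptd hS hy).S) =
        bv lam f i y := by
      intro i
      rw [e2, e3, e4]
      unfold bv
      ring
    simp only [e6]
    simp only [e1, e5]
  have hv : (ptd hS hy).v = V (pt (f y) y) := rfl
  have hS' : (ptd hS hy).S = 1 + dL lam f y := by
    show 1 + ∑ i, Stmt.pd i f y * Stmt.pd i lam y = _
    unfold dL
    congr 1
    exact Finset.sum_congr rfl fun i _ => by rw [stmt_pd' hf, stmt_pd' hl]; ring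
  have hc' : (ptd hS hy).c = 1 - ∑ i, pd i f y ^ 2 := by
    show 1 - ∑ i, Stmt.pd i f y * Stmt.pd i f y = _
    congr 1
    exact Finset.sum_congr rfl fun i _ => by rw [stmt_pd' hf]; ring
  rw [hct, hv, hS', hc'] at h1
  unfold thl
  have e : lap lam y * (1 - ∑ i, pd i f y ^ 2) / (1 + dL lam f y) ^ 2 =
      (1 - ∑ i, pd i f y ^ 2) / (1 + dL lam f y) ^ 2 * lap lam y := by ring
  rw [e]
  linarith

end Vale.Agent.P366.KS
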