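import Vale.Agent.P366.H375.X5c
import Vale.Agent.P366.H296.X5b

/-! Kerr-Schild exteriors: the energy as a limit over the level sets of `λ`. -/

open MeasureTheory Metric Filter Topology Set
open scoped ContDiff ENNReal

noncomputable section
namespace Vale.Agent.P366.KS

open Vale.Agent.P366 (pd E)
open Vale.Agent.P366.H353
open Vale.Agent.P366.H296.KSx

variable {C : Cone} {lam f : E 3 → ℝ} {V : E 4 → ℝ} {D : Stmt.Exterior 3} {x y : E 3} {s t : ℝ}

theorem energy_lim (hS : IsSlice C lam V f D) (hV : ∀ p ∈ Region lam f D, ContDiffAt ℝ ∞ V p)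
    (hAF : D.IsAF) {m : ℝ} (hm : D.IsEnergy m) :
    Tendsto (fun L => S2 (fun x => V (pt 0 (Y C.H x L)) * tr3 (Ws C.H L x))) atTop
      (𝓝 (16 * Real.pi * m)) := by
  have h1 := X5.flux_energy hS hV hAF hm
  obtain ⟨q, hq, hA⟩ := hAF
  have hq0 : 0 < q := by
    have : ((3 : ℕ) : ℝ) / 2 - 1 < q := hq
    norm_num at this
    linarith
  have h2 := lim_level hS hV hq0 (BO_V hS fun i j => (hA i j 0 0).1)
    (BO_dV hS fun i j k => (hA i j k 0).2.1) (w := fun _ => 1) continuousOn_const
    (fun x _ => by simp)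
  have h3 := h2.add h1
  rw [zero_add] at h3
  refine h3.congr fun L => ?_
  simp only [mul_one]
  show _ - 2 * L * S2 (fun x => V0 V (L • x)) + 2 * L * S2 (fun x => V0 V (L • x)) = _
  ring

end Vale.Agent.P366.KS
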