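import Vale.Agent.P366.H353.Defs

/-! Null shells in Minkowski space: the Jacobian of the transport map (algebra). -/

open MeasureTheory Metric Filter Topology Set
open scoped ContDiff

noncomputable section
namespace Vale.Agent.P366.H353

/-- The determinant of a perturbation of rank two of a multiple of the identity. -/
theorem det_rank_two (C : ℝ) (a g b x : Fin 3 → ℝ) :
    Matrix.det (Matrix.of fun i j => C * kd i j + a i * g j + b i * x j) =
      C * ((C + ∑ i, g i * a i) * (C + ∑ i, x i * b i) -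
        (∑ i, g i * b i) * (∑ i, x i * a i)) := by
  rw [Matrix.det_fin_three]
  simp only [Matrix.of_apply, kd, Fin.sum_univ_three, Fin.isValue]
  simp only [show ((0 : Fin 3) = 1) = False by simp, show ((0 : Fin 3) = 2) = False by simp,
    show ((1 : Fin 3) = 0) = False by simp, show ((1 : Fin 3) = 2) = False by simp,
    show ((2 : Fin 3) = 0) = False by simp, show ((2 : Fin 3) = 1) = False by simp, if_true,
    if_false]
  ring

/-- The determinant of `x xᵀ + B` for a symmetric matrix `B` vanishing on the unit vector `x`. -/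
theorem det_add_unit {x : Fin 3 → ℝ} {B : Fin 3 → Fin 3 → ℝ} (hx : ∑ i, x i ^ 2 = 1)
    (hB : ∀ i j, B i j = B j i) (hBx : ∀ i, ∑ j, B i j * x j = 0) :
    Matrix.det (Matrix.of fun i j => x i * x j + B i j) = det2 B := by
  have h10 := hB 1 0
  have h20 := hB 2 0
  have h21 := hB 2 1
  have b0 := hBx 0
  have b1 := hBx 1
  have b2 := hBx 2
  rw [Matrix.det_fin_three]
  simp only [Matrix.of_apply, Fin.sum_univ_three, Fin.isValue, det2, tr3, ip3] at *
  rw [h10, h20, h21] at *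
  set p := B 0 0
  set q := B 0 1
  set r := B 0 2
  set s := B 1 1
  set t := B 1 2
  set u := B 2 2
  set X := x 0
  set Y := x 1
  set Z := x 2
  have hc : X ^ 2 + Y ^ 2 + Z ^ 2 - 1 = 0 := by linarith
  linear_combination (X * (s * u - t ^ 2) + Y * (r * t - q * u) + Z * (q * t - r * s) +
    ((p * X + q * Y + r * Z) - (p + s + u) * X)) * b0 +
    (X * (r * t - q * u) + Y * (p * u - r ^ 2) + Z * (q * r - p * t) +
    ((q * X + s * Y + t * Z) - (p + s + u) * Y)) * b1 +
    (X * (q * t - r * s) + Y * (q * r - p * t) + Z * (p * s - q ^ 2) +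
    ((r * X + t * Y + u * Z) - (p + s + u) * Z)) * b2 +
    (((p + s + u) ^ 2 - (p ^ 2 + s ^ 2 + u ^ 2 + 2 * (q ^ 2 + r ^ 2 + t ^ 2))) / 2 -
      (p * (s * u - t ^ 2) - q * (q * u - r * t) + r * (q * t - r * s))) * hc

/-- algebra: Jacobian. `N = Hess q`, `g = ∇ q` at the unit vector `x`, `C = cos (θ / 2)` -/
theorem jac_alg {x g : Fin 3 → ℝ} {N : Fin 3 → Fin 3 → ℝ} {C : ℝ} (hx : ∑ i, x i ^ 2 = 1)
    (hxg : ∑ i, x i * g i = 0) (hN : ∀ i j, N i j = N j i) (hNx : ∀ i, ∑ j, N i j * x j = - g i)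
    (hC : 0 < C) (hgC : ∑ i, g i ^ 2 = 4 * (1 - C ^ 2)) {B J : Fin 3 → Fin 3 → ℝ}
    (hB : ∀ i j, B i j = N i j + g i * x j + x i * g j + (2 * C ^ 2 - 1) / C * pr x i j +
      g i * g j / (4 * C))
    (hJ : ∀ i j, J i j = ((2 * C ^ 2 - 1) * x i + C * g i) * x j + C * B i j -
      (g i / (4 * C) + x i) * ∑ k, g k * B k j) :
    Matrix.det (Matrix.of J) = det2 B := by
  have hBs : ∀ i j, B i j = B j i := by
    intro i j
    have hkd : kd i j = kd j i := by
      unfold kd
      simp only [eq_comm]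
    rw [hB, hB, hN i j, pr, pr, hkd]
    ring
  have hx' : x 0 ^ 2 + x 1 ^ 2 + x 2 ^ 2 = 1 := by simpa only [Fin.sum_univ_three] using hx
  have hxg' : x 0 * g 0 + x 1 * g 1 + x 2 * g 2 = 0 := by
    simpa only [Fin.sum_univ_three] using hxg
  have hg' : g 0 ^ 2 + g 1 ^ 2 + g 2 ^ 2 = 4 * (1 - C ^ 2) := by
    simpa only [Fin.sum_univ_three] using hgC
  have hkx : ∀ i, ∑ j, kd i j * x j = x i := by
    intro i
    simp [kd]
  have hBx : ∀ i, ∑ j, B i j * x j = 0 := by
    intro i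
    have h1 := hNx i
    have h2 := hkx i
    simp only [Fin.sum_univ_three] at h1 h2 ⊢
    rw [hB, hB, hB, pr, pr, pr]
    linear_combination h1 + (2 * C ^ 2 - 1) / C * h2 + (g i - (2 * C ^ 2 - 1) / C * x i) * hx' +
      (x i + g i / (4 * C)) * hxg'
  have hxB : ∀ j, ∑ k, x k * B k j = 0 := by
    intro j
    rw [← hBx j]
    exact Finset.sum_congr rfl fun k _ => by rw [hBs k j]; ring
  have hprod : Matrix.of J = (Matrix.of fun i j => C * kd i j + (-(g i / (4 * C) + x i)) * g j +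
      ((2 * C ^ 2 - 1 - C) * x i + C * g i) * x j) * (Matrix.of fun i j => x i * x j + B i j) := by
    ext i j
    rw [Matrix.mul_apply]
    simp only [Matrix.of_apply]
    have h1 : ∑ k, kd i k * (x k * x j + B k j) = x i * x j + B i j := by simp [kd]
    have h2 := hxB j
    rw [hJ]
    simp only [Fin.sum_univ_three] at h1 h2 ⊢
    linear_combination (-C) * h1 - ((2 * C ^ 2 - 1 - C) * x i + C * g i) * h2 -
      ((2 * C ^ 2 - 1 - C) * x i + C * g i) * x j * hx' + (g i / (4 * C) + x i) * x j * hxg'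
  rw [hprod, Matrix.det_mul, det_add_unit hx hBs hBx, det_rank_two]
  simp only [Fin.sum_univ_three]
  have e1 : g 0 * -(g 0 / (4 * C) + x 0) + g 1 * -(g 1 / (4 * C) + x 1) +
      g 2 * -(g 2 / (4 * C) + x 2) = -(1 - C ^ 2) / C := by
    field_simp
    linear_combination -hg' - 4 * C * hxg'
  have e2 : x 0 * ((2 * C ^ 2 - 1 - C) * x 0 + C * g 0) + x 1 * ((2 * C ^ 2 - 1 - C) * x 1 + C * g 1) +
      x 2 * ((2 * C ^ 2 - 1 - C) * x 2 + C * g 2) = 2 * C ^ 2 - 1 - C := by
    linear_combination (2 * C ^ 2 - 1 - C) * hx' + C * hxg'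
  have e3 : g 0 * ((2 * C ^ 2 - 1 - C) * x 0 + C * g 0) + g 1 * ((2 * C ^ 2 - 1 - C) * x 1 + C * g 1) +
      g 2 * ((2 * C ^ 2 - 1 - C) * x 2 + C * g 2) = 4 * C * (1 - C ^ 2) := by
    linear_combination C * hg' + (2 * C ^ 2 - 1 - C) * hxg'
  have e4 : x 0 * -(g 0 / (4 * C) + x 0) + x 1 * -(g 1 / (4 * C) + x 1) +
      x 2 * -(g 2 / (4 * C) + x 2) = -1 := by
    linear_combination -hx' - (1 / (4 * C)) * hxg'
  rw [e1, e2, e3, e4]
  have e5 : C * ((C + -(1 - C ^ 2) / C) * (C + (2 * C ^ 2 - 1 - C)) - 4 * C * (1 - C ^ 2) * -1) = 1 := by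
    field_simp
    ring
  rw [e5, one_mul]

end Vale.Agent.P366.H353
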