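import Vale.Agent.P366.H375.E0
import Vale.Agent.P366.H707.C3

/-! Null shells in Minkowski space: the integrated contact inequality. -/

open MeasureTheory Metric Filter Topology Set
open scoped ContDiff

noncomputable section
namespace Vale.Agent.P366.H353

theorem sixteen (D : Dat) {q : E 3 → ℝ} (hq : Q q) :
    16 * Real.pi ≤ S2 (fun x => (D.L q x + D.Phi x) ^ 2 / D.dt x) :=
  sixteen_of D hq fun G h1 h2 h3 => abp hq G h1 h2 h3

end Vale.Agent.P366.H353
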