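import Vale.Agent.P366.H375.X2c
import Vale.Agent.P366.H222.X0d
import Vale.Agent.P366.H896.X1d

/-! Closed forms of the data induced on a hypersurface `t = f(y)` of a Kerr-Schild metric. -/

open MeasureTheory Metric Filter Topology Set
open scoped ContDiff ENNReal

noncomputable section
namespace Vale.Agent.P366.KS.X2

open Vale.Agent.P366 (pd E)
open Vale.Agent.P366.H353
open Vale.Agent.P366.H375 (dl HP)

variable {C : Cone} {lam f : E 3 → ℝ} {V : E 4 → ℝ} {D : Stmt.Exterior 3} {x y : E 3} {s t : ℝ}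

/-! ### the two partial derivatives -/

lemma stmt_pd {n : ℕ} {f : E n → ℝ} {x : E n} (h : DifferentiableAt ℝ f x) (i : Fin n) :
    Stmt.pd i f x = pd i f x := H375.pd_fderiv h i

lemma stmt_pd' {n : ℕ} {f : E n → ℝ} {x : E n} (h : ContDiffAt ℝ ∞ f x) (i : Fin n) :
    Stmt.pd i f x = pd i f x := stmt_pd (H375.cd_diff h) i

lemma stmt_pd2 {n : ℕ} {f : E n → ℝ} {x : E n} (h : ContDiffAt ℝ ∞ f x) (i j : Fin n) :
    Stmt.pd i (Stmt.pd j f) x = pd i (pd j f) x := by
  rw [H375.pd_congr (H375.pd_ev h j) i]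
  have h1 : DifferentiableAt ℝ (fun y => fderiv ℝ f y (EuclideanSpace.single j 1)) x := by
    have h2 : ContDiffAt ℝ ∞ (fderiv ℝ f) x := h.fderiv_right (by simp)
    exact (h2.clm_apply contDiffAt_const).differentiableAt (by simp)
  exact stmt_pd h1 i

/-! ### the function `nul` and the points of spacetime -/

lemma sp_pt (t : ℝ) (y : E 3) : sp (pt t y) = y := by
  ext i
  simp [sp, pt]

lemma pt_zero (t : ℝ) (y : E 3) : pt t y 0 = t := by simp [pt]

lemma pt_succ (t : ℝ) (y : E 3) (i : Fin 3) : pt t y i.succ = y i := by simp [pt]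

lemma pd_nul_zero (lam : E 3 → ℝ) (p : E 4) : Stmt.pd 0 (nul lam) p = 1 := by
  unfold Stmt.pd lineDeriv
  have e : (fun t : ℝ => nul lam (p + t • EuclideanSpace.single 0 (1 : ℝ))) =
      fun t : ℝ => p 0 + t + lam (sp p) := by
    funext t
    have h1 : sp (p + t • EuclideanSpace.single 0 (1 : ℝ)) = sp p := by
      ext i
      simp [sp]
    unfold nul
    rw [h1]
    simp
  rw [e]
  have : HasDerivAt (fun t : ℝ => p 0 + t + lam (sp p)) 1 0 := by
    simpa using ((hasDerivAt_id (0 : ℝ)).const_add (p 0)).add_const (lam (sp p))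
  exact this.deriv

lemma pd_nul_succ (lam : E 3 → ℝ) (p : E 4) (i : Fin 3) :
    Stmt.pd i.succ (nul lam) p = Stmt.pd i lam (sp p) := by
  unfold Stmt.pd lineDeriv
  have e : (fun t : ℝ => nul lam (p + t • EuclideanSpace.single i.succ (1 : ℝ))) =
      fun t : ℝ => p 0 + lam (sp p + t • EuclideanSpace.single i (1 : ℝ)) := by
    funext t
    have h1 : sp (p + t • EuclideanSpace.single i.succ (1 : ℝ)) =
        sp p + t • EuclideanSpace.single i (1 : ℝ) := by
      ext j
      simp [sp]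
    have h2 : (p + t • EuclideanSpace.single i.succ (1 : ℝ)) 0 = p 0 := by
      simp [(Fin.succ_ne_zero i).symm]
    unfold nul
    rw [h1, h2]
  rw [e, deriv_const_add]

/-- closed form of the induced metric -/
theorem indG_eq (lam : E 3 → ℝ) (V : E 4 → ℝ) (f : E 3 → ℝ) (y : E 3) (i j : Fin 3) :
    indG (ksG lam V) f y i j = dl i j - Stmt.pd i f y * Stmt.pd j f y +
      V (pt (f y) y) * (Stmt.pd i f y + Stmt.pd i lam y) * (Stmt.pd j f y + Stmt.pd j lam y) := by
  have hw : ∀ i : Fin 3, ∑ a, Stmt.pd a (nul lam) (pt (f y) y) * tng f i y a =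
      Stmt.pd i f y + Stmt.pd i lam y := by
    intro i
    rw [Fin.sum_univ_succ]
    simp only [pd_nul_zero, pd_nul_succ, sp_pt, tng, Fin.cons_zero, Fin.cons_succ]
    simp [Pi.single_apply]
  have he : ∑ a, ∑ b, (if a = b then (if a = 0 then (-1 : ℝ) else 1) else 0) * tng f i y a *
      tng f j y b = dl i j - Stmt.pd i f y * Stmt.pd j f y := by
    have h1 : ∀ a : Fin 4, ∑ b, (if a = b then (if a = 0 then (-1 : ℝ) else 1) else 0) *
        tng f i y a * tng f j y b = (if a = 0 then (-1 : ℝ) else 1) * tng f i y a * tng f j y a := by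
      intro a
      rw [Finset.sum_eq_single a]
      · simp
      · intro b _ hb
        simp [hb.symm]
      · simp
    simp only [h1]
    rw [Fin.sum_univ_succ]
    simp only [tng, Fin.cons_zero, Fin.cons_succ, if_true, Fin.succ_ne_zero, if_false]
    have h2 : ∑ k : Fin 3, (1 : ℝ) * Pi.single (M := fun _ => ℝ) i 1 k *
        Pi.single (M := fun _ => ℝ) j 1 k = dl i j := by
      rw [Finset.sum_eq_single j]
      · simp [dl, Pi.single_apply, eq_comm]
      · intro b _ hb
        simp [Pi.single_apply, hb]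
      · simp
    rw [h2]
    ring
  unfold indG
  rw [← he, ← hw i, ← hw j]
  have e1 : V (pt (f y) y) * (∑ a, Stmt.pd a (nul lam) (pt (f y) y) * tng f i y a) *
      (∑ b, Stmt.pd b (nul lam) (pt (f y) y) * tng f j y b) =
      ∑ a, ∑ b, V (pt (f y) y) * Stmt.pd a (nul lam) (pt (f y) y) *
        Stmt.pd b (nul lam) (pt (f y) y) * tng f i y a * tng f j y b := by
    simp only [Finset.mul_sum, Finset.sum_mul]
    rw [Finset.sum_comm]
    exact Finset.sum_congr rfl fun a _ => Finset.sum_congr rfl fun b _ => by ring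
  rw [e1, ← Finset.sum_add_distrib]
  refine Finset.sum_congr rfl fun a _ => ?_
  rw [← Finset.sum_add_distrib]
  refine Finset.sum_congr rfl fun b _ => ?_
  unfold ksG
  ring

/-! ### the inverse metric and the lapse -/

/-- the sign of the time coordinate -/
def sg (a : Fin 4) : ℝ := if a = 0 then -1 else 1

lemma sg_sq (a : Fin 4) : sg a * sg a = 1 := by
  unfold sg
  split_ifs <;> norm_num

/-- the covector `dt + dλ` -/
def wv (lam : E 3 → ℝ) (y : E 3) : Fin 4 → ℝ := Fin.cons 1 fun i => Stmt.pd i lam y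

lemma ksG_eq (lam : E 3 → ℝ) (V : E 4 → ℝ) (p : E 4) (a b : Fin 4) :
    ksG lam V p a b = (if a = b then sg a else 0) + V p * wv lam (sp p) a * wv lam (sp p) b := by
  have h : ∀ a, Stmt.pd a (nul lam) p = wv lam (sp p) a := by
    intro a
    refine Fin.cases ?_ (fun i => ?_) a
    · rw [pd_nul_zero]; rfl
    · rw [pd_nul_succ]; rfl
  unfold ksG sg
  rw [h, h]

lemma up_ksG {p : E 4} (hl : ∑ i, Stmt.pd i lam (sp p) * Stmt.pd i lam (sp p) = 1) (a b : Fin 4) :
    Stmt.up (ksG lam V) a b p = (if a = b then sg a else 0) -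
      V p * (sg a * wv lam (sp p) a) * (sg b * wv lam (sp p) b) := by
  have hk : ∑ a, sg a * (wv lam (sp p) a * wv lam (sp p) a) = 0 := by
    rw [Fin.sum_univ_succ]
    simp only [wv, Fin.cons_zero, Fin.cons_succ, sg, if_true, Fin.succ_ne_zero, if_false, one_mul]
    rw [hl]
    norm_num
  have e : Stmt.mat (ksG lam V) p * (Matrix.of fun a b => (if a = b then sg a else 0) -
      V p * (sg a * wv lam (sp p) a) * (sg b * wv lam (sp p) b)) = 1 := by
    ext a c
    rw [Matrix.mul_apply]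
    have h1 : ∀ b, Stmt.mat (ksG lam V) p a b * (Matrix.of fun a b => (if a = b then sg a else 0) -
        V p * (sg a * wv lam (sp p) a) * (sg b * wv lam (sp p) b)) b c =
        (if a = b then sg a * (if b = c then sg b else 0) else 0) -
        (if a = b then sg a * (V p * (sg b * wv lam (sp p) b) * (sg c * wv lam (sp p) c)) else 0) +
        (if b = c then V p * wv lam (sp p) a * wv lam (sp p) b * sg b else 0) -
        V p * V p * wv lam (sp p) a * (sg c * wv lam (sp p) c) *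
          (sg b * (wv lam (sp p) b * wv lam (sp p) b)) := by
      intro b
      rw [Matrix.of_apply]
      unfold Stmt.mat
      rw [ksG_eq]
      split_ifs <;> ring
    simp only [h1, Finset.sum_add_distrib, Finset.sum_sub_distrib, ← Finset.mul_sum, hk,
      Finset.sum_ite_eq, Finset.sum_ite_eq', Finset.mem_univ, if_true]
    rw [Matrix.one_apply]
    have h2 := sg_sq a
    split_ifs with hac
    · subst hac
      linear_combination (1 - V p * wv lam (sp p) a * (sg a * wv lam (sp p) a)) * h2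
    · linear_combination (-V p * wv lam (sp p) a * (sg c * wv lam (sp p) c)) * h2
  unfold Stmt.up
  rw [Matrix.inv_eq_right_inv e, Matrix.of_apply]

/-- closed form of the lapse -/
theorem lapse_eq (V : E 4 → ℝ) (f : E 3 → ℝ) {y : E 3}
    (hl : ∑ i, Stmt.pd i lam y * Stmt.pd i lam y = 1) :
    lapse (ksG lam V) f y = 1 / √(1 - ∑ i, Stmt.pd i f y * Stmt.pd i f y +
      V (pt (f y) y) * (1 + ∑ i, Stmt.pd i f y * Stmt.pd i lam y) ^ 2) := by
  have hk : ∑ a, sg a * wv lam y a * con f y a =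
      -(1 + ∑ i, Stmt.pd i f y * Stmt.pd i lam y) := by
    rw [Fin.sum_univ_succ]
    simp only [wv, con, Fin.cons_zero, Fin.cons_succ, sg, if_true, Fin.succ_ne_zero, if_false,
      one_mul, mul_neg, Finset.sum_neg_distrib]
    have : ∑ i, Stmt.pd i lam y * Stmt.pd i f y = ∑ i, Stmt.pd i f y * Stmt.pd i lam y :=
      Finset.sum_congr rfl fun i _ => mul_comm _ _
    rw [this]
    ring
  have hc : ∑ a, sg a * con f y a * con f y a = -1 + ∑ i, Stmt.pd i f y * Stmt.pd i f y := by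
    rw [Fin.sum_univ_succ]
    simp only [con, Fin.cons_zero, Fin.cons_succ, sg, if_true, Fin.succ_ne_zero, if_false,
      one_mul, mul_neg, neg_mul, neg_neg, mul_one]
  have hl' : ∑ i, Stmt.pd i lam (sp (pt (f y) y)) * Stmt.pd i lam (sp (pt (f y) y)) = 1 := by
    rw [sp_pt, hl]
  unfold lapse
  congr 2
  have e : ∀ a, ∑ b, Stmt.up (ksG lam V) a b (pt (f y) y) * con f y a * con f y b =
      sg a * con f y a * con f y a - V (pt (f y) y) * (∑ b, sg b * wv lam y b * con f y b) *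
        (sg a * wv lam y a * con f y a) := by
    intro a
    simp only [up_ksG hl', sp_pt, sub_mul, Finset.sum_sub_distrib, ite_mul, zero_mul,
      Finset.sum_ite_eq, Finset.mem_univ, if_true]
    congr 1
    rw [Finset.mul_sum, Finset.sum_mul]
    exact Finset.sum_congr rfl fun b _ => by ring
  simp only [e, Finset.sum_sub_distrib, ← Finset.mul_sum]
  rw [hk, hc]
  ring

/-! ### the second fundamental form -/

/-- contraction of a covector with the vector field `∂_i` of the hypersurface -/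
def cot (f : E 3 → ℝ) (y : E 3) (X : Fin 4 → ℝ) (i : Fin 3) : ℝ := X 0 * Stmt.pd i f y + X i.succ

lemma cot_eq (f : E 3 → ℝ) (y : E 3) (X : Fin 4 → ℝ) (i : Fin 3) :
    ∑ a, X a * tng f i y a = cot f y X i := by
  rw [Fin.sum_univ_succ]
  simp [tng, cot, Pi.single_apply]

lemma bil_eq (f : E 3 → ℝ) (y : E 3) (h : Fin 3 → Fin 3 → ℝ) (i j : Fin 3) :
    ∑ b, ∑ c, (Fin.cons (fun _ => 0) fun i => (Fin.cons 0 fun j => h i j : Fin 4 → ℝ) :
      Fin 4 → Fin 4 → ℝ) b c * tng f i y b * tng f j y c = h i j := by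
  rw [Fin.sum_univ_succ]
  simp only [Fin.cons_zero, Fin.cons_succ, zero_mul, Finset.sum_const_zero, zero_add]
  have e : ∀ k : Fin 3, ∑ c : Fin 4, (Fin.cons 0 fun j => h k j : Fin 4 → ℝ) c *
      tng f i y k.succ * tng f j y c = tng f i y k.succ * h k j := by
    intro k
    rw [Fin.sum_univ_succ]
    simp only [Fin.cons_zero, Fin.cons_succ, zero_mul, zero_add, tng]
    rw [Finset.sum_eq_single j]
    · simp
      ring
    · intro b _ hb
      simp [Pi.single_apply, hb]
    · simp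
  simp only [e]
  simp [tng, Pi.single_apply]

lemma contr (w k dV uV X X' c : Fin 4 → ℝ) (h : Fin 4 → Fin 4 → ℝ) (v kV : ℝ) :
    ∑ a, c a * ∑ b, ∑ d, ((dV b * k a * w d + dV d * k a * w b - uV a * w b * w d) / 2 +
      v * kV * k a * w b * w d / 2 + v * k a * h b d) * X b * X' d =
    (∑ a, k a * c a) * (((∑ b, dV b * X b) * (∑ d, w d * X' d) +
      (∑ d, dV d * X' d) * (∑ b, w b * X b)) / 2 + v * kV * ((∑ b, w b * X b) *
      (∑ d, w d * X' d)) / 2 + v * ∑ b, ∑ d, h b d * X b * X' d) -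
      (∑ a, uV a * c a) * ((∑ b, w b * X b) * (∑ d, w d * X' d)) / 2 := by
  have e : ∀ a, ∑ b, ∑ d, ((dV b * k a * w d + dV d * k a * w b - uV a * w b * w d) / 2 +
      v * kV * k a * w b * w d / 2 + v * k a * h b d) * X b * X' d =
      k a * (((∑ b, dV b * X b) * (∑ d, w d * X' d) +
      (∑ d, dV d * X' d) * (∑ b, w b * X b)) / 2 + v * kV * ((∑ b, w b * X b) *
      (∑ d, w d * X' d)) / 2 + v * ∑ b, ∑ d, h b d * X b * X' d) -
      uV a * ((∑ b, w b * X b) * (∑ d, w d * X' d)) / 2 := by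
    intro a
    simp only [Fin.sum_univ_four]
    ring
  simp only [e]
  generalize (((∑ b, dV b * X b) * (∑ d, w d * X' d) +
      (∑ d, dV d * X' d) * (∑ b, w b * X b)) / 2 + v * kV * ((∑ b, w b * X b) *
      (∑ d, w d * X' d)) / 2 + v * ∑ b, ∑ d, h b d * X b * X' d) = A
  generalize ((∑ b, w b * X b) * (∑ d, w d * X' d)) = B
  simp only [Fin.sum_univ_four]
  ring

/-- The second fundamental form, closed form. -/
theorem indK_eq {y : E 3} (hl : ContDiffAt ℝ ∞ lam y)
    (hg : ∑ i, pd i lam y ^ 2 = 1) (hg' : ∀ i, ∑ j, H353.hs lam i j y * pd j lam y = 0)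
    (hV : ContDiffAt ℝ ∞ V (pt (f y) y)) (i j : Fin 3) :
    indK (ksG lam V) f y i j = lapse (ksG lam V) f y * (Stmt.pd i (Stmt.pd j f) y -
      V (pt (f y) y) * (1 + ∑ k, Stmt.pd k f y * Stmt.pd k lam y) * Stmt.pd i (Stmt.pd j lam) y -
      (1 + ∑ k, Stmt.pd k f y * Stmt.pd k lam y) / 2 *
        (cot f y (fun a => pd a V (pt (f y) y)) i * (Stmt.pd j f y + Stmt.pd j lam y) +
         cot f y (fun a => pd a V (pt (f y) y)) j * (Stmt.pd i f y + Stmt.pd i lam y)) +
      (pd 0 V (pt (f y) y) + ∑ k : Fin 3, Stmt.pd k f y * pd k.succ V (pt (f y) y) -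
        V (pt (f y) y) * (1 + ∑ k, Stmt.pd k f y * Stmt.pd k lam y) *
        (- pd 0 V (pt (f y) y) + ∑ k : Fin 3, Stmt.pd k lam y * pd k.succ V (pt (f y) y))) / 2 *
        ((Stmt.pd i f y + Stmt.pd i lam y) * (Stmt.pd j f y + Stmt.pd j lam y))) := by
  have hs := sp_pt (f y) y
  have hlp : ∀ i, pd i lam y = Stmt.pd i lam y := fun i => (stmt_pd' hl i).symm
  have hc := chr_ksG (lam := lam) (V := V) (p := pt (f y) y) (by rw [hs]; exact hl)
    (by rw [hs]; exact hg) (by rw [hs]; exact hg') hV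
  simp only [hs] at hc
  obtain ⟨w, hw⟩ : ∃ w : Fin 4 → ℝ, w = Fin.cons 1 fun i => pd i lam y := ⟨_, rfl⟩
  obtain ⟨k, hk⟩ : ∃ k : Fin 4 → ℝ, k = Fin.cons (-1) fun i => pd i lam y := ⟨_, rfl⟩
  obtain ⟨h, hh⟩ : ∃ h : Fin 4 → Fin 4 → ℝ, h = Fin.cons (fun _ => 0) fun i =>
      (Fin.cons 0 fun j => H353.hs lam i j y : Fin 4 → ℝ) := ⟨_, rfl⟩
  obtain ⟨dV, hdV⟩ : ∃ dV : Fin 4 → ℝ, dV = fun a => pd a V (pt (f y) y) := ⟨_, rfl⟩
  obtain ⟨uV, huV⟩ : ∃ uV : Fin 4 → ℝ,
      uV = Fin.cons (- pd 0 V (pt (f y) y)) fun i : Fin 3 => pd i.succ V (pt (f y) y) := ⟨_, rfl⟩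
  obtain ⟨kV, hkV⟩ : ∃ kV : ℝ, kV = ∑ a, k a * dV a := ⟨_, rfl⟩
  have hc' : ∀ a b c, Stmt.chr (ksG lam V) a b c (pt (f y) y) =
      (dV b * k a * w c + dV c * k a * w b - uV a * w b * w c) / 2 +
      V (pt (f y) y) * kV * k a * w b * w c / 2 + V (pt (f y) y) * k a * h b c := by
    intro a b c
    rw [hc a b c, hkV, hw, hk, hh, hdV, huV]
  have h1 : ∀ i, ∑ b, w b * tng f i y b = Stmt.pd i f y + Stmt.pd i lam y := by
    intro i
    rw [cot_eq, cot, hw]
    simp only [Fin.cons_zero, Fin.cons_succ, hlp]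
    ring
  have h2 : ∑ a, k a * con f y a = -(1 + ∑ k, Stmt.pd k f y * Stmt.pd k lam y) := by
    rw [Fin.sum_univ_succ, hk]
    simp only [con, Fin.cons_zero, Fin.cons_succ, hlp, mul_neg, Finset.sum_neg_distrib]
    have : ∑ i, Stmt.pd i lam y * Stmt.pd i f y = ∑ i, Stmt.pd i f y * Stmt.pd i lam y :=
      Finset.sum_congr rfl fun i _ => mul_comm _ _
    rw [this]
    ring
  have h3 : ∑ a, uV a * con f y a =
      -(pd 0 V (pt (f y) y) + ∑ k : Fin 3, Stmt.pd k f y * pd k.succ V (pt (f y) y)) := by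
    rw [Fin.sum_univ_succ, huV]
    simp only [con, Fin.cons_zero, Fin.cons_succ, mul_neg, Finset.sum_neg_distrib]
    have : ∑ i : Fin 3, pd i.succ V (pt (f y) y) * Stmt.pd i f y =
        ∑ i : Fin 3, Stmt.pd i f y * pd i.succ V (pt (f y) y) :=
      Finset.sum_congr rfl fun i _ => mul_comm _ _
    rw [this]
    ring
  have h4 : kV = - pd 0 V (pt (f y) y) + ∑ k : Fin 3, Stmt.pd k lam y * pd k.succ V (pt (f y) y) := by
    rw [hkV, Fin.sum_univ_succ, hk, hdV]
    simp only [Fin.cons_zero, Fin.cons_succ, hlp]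
    ring
  have h5 : ∀ i, ∑ b, dV b * tng f i y b = cot f y (fun a => pd a V (pt (f y) y)) i := by
    intro i
    rw [cot_eq, hdV]
  have h6 : ∑ b, ∑ c, h b c * tng f i y b * tng f j y c = Stmt.pd i (Stmt.pd j lam) y := by
    rw [hh, bil_eq, stmt_pd2 hl]
    rfl
  unfold indK
  simp only [hc']
  have h7 := contr w k dV uV (tng f i y) (tng f j y) (con f y) h (V (pt (f y) y)) kV
  rw [h7, h1, h1, h2, h3, h5, h5, h6, ← h4]
  ring

end Vale.Agent.P366.KS.X2
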