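import Vale.Agent.P366.H375.D

/-! Null shells in Minkowski space: the integrated contact inequality. -/

open MeasureTheory Metric Filter Topology Set
open scoped ContDiff

noncomputable section
namespace Vale.Agent.P366.H353

open Vale.Agent.P366 (sphI sphM pd E)

theorem Sm.pr (i j : Fin 3) : Sm fun x => pr x i j :=
  (Sm.const (kd i j)).sub ((Sm.coord i).mul (Sm.coord j))

theorem Sm.cmul {f : E 3 → ℝ} (hf : Sm f) (c : ℝ) : Sm fun x => c * f x := (Sm.const c).mul hf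

theorem Sm.tr3 {M : E 3 → Fin 3 → Fin 3 → ℝ} (hM : ∀ i j, Sm fun x => M x i j) :
    Sm fun x => tr3 (M x) := Sm.sum _ fun i => hM i i

theorem Sm.ip3 {M N : E 3 → Fin 3 → Fin 3 → ℝ} (hM : ∀ i j, Sm fun x => M x i j)
    (hN : ∀ i j, Sm fun x => N x i j) : Sm fun x => ip3 (M x) (N x) :=
  Sm.sum _ fun i => Sm.sum _ fun j => (hM i j).mul (hN i j)

theorem Sm.qf {M : E 3 → Fin 3 → Fin 3 → ℝ} {v w : E 3 → Fin 3 → ℝ}
    (hM : ∀ i j, Sm fun x => M x i j) (hv : ∀ i, Sm fun x => v x i)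
    (hw : ∀ i, Sm fun x => w x i) : Sm fun x => qf (M x) (v x) (w x) :=
  Sm.sum _ fun i => Sm.sum _ fun j => ((hM i j).mul (hv i)).mul (hw j)

theorem Sm.det2 {M : E 3 → Fin 3 → Fin 3 → ℝ} (hM : ∀ i j, Sm fun x => M x i j) :
    Sm fun x => det2 (M x) :=
  ((((Sm.tr3 hM).pow 2).sub (Sm.ip3 hM hM)).mul (Sm.const 2⁻¹)).congr
    fun _ _ => by rw [H353.det2, div_eq_mul_inv]

namespace Dat

variable (D : Dat)

theorem sm_W (i j : Fin 3) : Sm fun x => D.W x i j :=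
  (D.smH.hs i j).add (D.smU.mul (Sm.pr i j))

theorem sm_A (i j : Fin 3) : Sm fun x => D.A x i j :=
  ((Sm.tr3 D.sm_W).mul (Sm.pr i j)).sub (D.sm_W i j)

theorem sm_gU (i : Fin 3) : Sm fun x => D.gU x i := D.smU.pd i

theorem sm_dt : Sm D.dt := Sm.det2 D.sm_W

theorem sm_L {q : E 3 → ℝ} (hq : Sm q) : Sm (D.L q) :=
  (((D.smH.lap.mul hq.lap).sub
    (Sm.sum _ fun i => Sm.sum _ fun j => (D.smH.hs i j).mul (hq.hs i j))).add
      (D.smU.mul hq.lap)).add (Sm.sum _ fun i => (D.smU.pd i).mul (hq.pd i))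

theorem cont_Phi : ContinuousOn D.Phi (sphere (0 : E 3) 1) := by
  apply ContinuousOn.add (Sm.tr3 D.sm_W).contOn
  apply ContinuousOn.div (Sm.qf D.sm_A D.sm_gU D.sm_gU).contOn D.sm_dt.contOn
  intro x hx
  exact (dt_pos D (by simpa using hx)).ne'

end Dat

theorem sixteen_of (D : Dat) {q : E 3 → ℝ} (hq : Q q)
    (habp : ∀ G : E 3 → ℝ, ContinuousOn G (sphere 0 1) → (∀ x, ‖x‖ = 1 → 0 ≤ G x) →
      (∀ x, ‖x‖ = 1 → gsq q x < 4 → (∀ v : Fin 3 → ℝ, 0 ≤ qf (Bq q x) v v) →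
        det2 (Bq q x) ≤ G x) → 4 * Real.pi ≤ S2 G) :
    16 * Real.pi ≤ S2 (fun x => (D.L q x + D.Phi x) ^ 2 / D.dt x) := by
  have h := habp (fun x => 1 / 4 * ((D.L q x + D.Phi x) ^ 2 / D.dt x)) ?_ ?_ ?_
  · rw [S2_cmul] at h
    linarith
  · apply continuousOn_const.mul
    apply ContinuousOn.div (((D.sm_L hq.sm).contOn.add D.cont_Phi).pow 2) D.sm_dt.contOn
    intro x hx
    exact (dt_pos D (by simpa using hx)).ne'
  · intro x hx
    have := dt_pos D hx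
    positivity
  · intro x hx hg hB
    have h1 := dt_pos D hx
    have h2 := key_pt D hq hx hg hB
    have h3 : 1 / 4 * ((D.L q x + D.Phi x) ^ 2 / D.dt x) =
        (D.L q x + D.Phi x) ^ 2 / (4 * D.dt x) := by
      field_simp
    rw [h3, le_div_iff₀ (by positivity)]
    linarith

end Vale.Agent.P366.H353
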