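import Vale.Agent.P366.H375.X2a

/-! Null expansion of the level sets of `f + lam` in a slice `t = f` of a Kerr-Schild metric. -/

open MeasureTheory Metric Filter Topology Set
open scoped ContDiff ENNReal

noncomputable section
namespace Vale.Agent.P366.H375
open Vale.Agent.P366.Stmt

variable {n : ℕ}

namespace Pt

variable (p : Pt n)

/-- contraction with the inverse metric of the level set -/
def ct (T : Fin n → Fin n → ℝ) : ℝ := ∑ i, ∑ j, p.P i j * T i j

lemma ct_add (T T' : Fin n → Fin n → ℝ) : p.ct (fun i j => T i j + T' i j) = p.ct T + p.ct T' := by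
  simp only [ct, mul_add, Finset.sum_add_distrib]

lemma ct_sub (T T' : Fin n → Fin n → ℝ) : p.ct (fun i j => T i j - T' i j) = p.ct T - p.ct T' := by
  simp only [ct, mul_sub, Finset.sum_sub_distrib]

lemma ct_mul (r : ℝ) (T : Fin n → Fin n → ℝ) : p.ct (fun i j => r * T i j) = r * p.ct T := by
  simp only [ct, Finset.mul_sum]
  exact Finset.sum_congr rfl fun i _ => Finset.sum_congr rfl fun j _ => by ring

lemma ct_right (a : Fin n → ℝ) : p.ct (fun i j => a i * p.F j) = 0 := by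
  unfold ct
  refine Finset.sum_eq_zero fun i _ => ?_
  have : ∑ j, p.P i j * (a i * p.F j) = a i * ∑ j, p.P i j * p.F j := by
    rw [Finset.mul_sum]
    exact Finset.sum_congr rfl fun j _ => by ring
  rw [this, p.P_F, mul_zero]

lemma ct_left (a : Fin n → ℝ) : p.ct (fun i j => p.F i * a j) = 0 := by
  rw [← p.ct_right a]
  unfold ct
  rw [Finset.sum_comm]
  exact Finset.sum_congr rfl fun i _ => Finset.sum_congr rfl fun j _ => by
    rw [p.P_symm j i]; ring

/-- a symmetric matrix vanishing on `u` -/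
lemma ct_trace {T : Fin n → Fin n → ℝ} (hT : ∀ i j, T i j = T j i)
    (hu : ∀ i, ∑ j, T i j * p.u j = 0) : p.ct T = ∑ i, T i i := by
  have hu' : ∀ j, ∑ i, T i j * p.u i = 0 := by
    intro j
    rw [← hu j]
    exact Finset.sum_congr rfl fun i _ => by rw [hT i j]
  have e : ∀ i, ∑ j, p.P i j * T i j =
      T i i - (p.f i / p.S + p.c / p.S ^ 2 * p.u i) * ∑ j, T i j * p.u j -
        (p.u i / p.S * ∑ j, p.f j * T i j) := by
    intro i
    rw [p.sum_P]
    have : ∑ j, p.u j * T i j = ∑ j, T i j * p.u j := Finset.sum_congr rfl fun j _ => mul_comm _ _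
    rw [this]
    ring
  unfold ct
  simp only [e, hu, mul_zero, sub_zero, Finset.sum_sub_distrib, Finset.mul_sum]
  rw [Finset.sum_comm (f := fun i j => p.u i / p.S * (p.f j * T i j))]
  have e2 : ∀ j, ∑ i, p.u i / p.S * (p.f j * T i j) = 0 := by
    intro j
    have : ∑ i, p.u i / p.S * (p.f j * T i j) = p.f j / p.S * ∑ i, T i j * p.u i := by
      rw [Finset.mul_sum]
      exact Finset.sum_congr rfl fun i _ => by ring
    rw [this, hu', mul_zero]
  simp only [e2, Finset.sum_const_zero, sub_zero]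

end Pt

/-- the jet of the data; `F` is a defining function of the level set of `f + lam` -/
structure Jet (g : Field n) (F f lam v : E n → ℝ) (x : E n) (p : Pt n) (r : ℝ) (b : Fin n → ℝ) :
    Prop where
  cf : ContDiffAt ℝ ∞ f x
  cl : ContDiffAt ℝ ∞ lam x
  cv : ContDiffAt ℝ ∞ v x
  r0 : 0 < r
  pF : ∀ i, pd i F x = r * p.F i
  pFF : ∀ i j, pd i (pd j F) x = r * (pd i (pd j f) x + pd i (pd j lam) x) +
    (b i * p.F j + p.F i * b j)
  eik : ∀ i, ∑ j, pd i (pd j lam) x * p.u j = 0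
  hg : ∀ i j, ∀ᶠ y in 𝓝 x, g y i j = dl i j - pd i f y * pd j f y +
    v y * (pd i f y + pd i lam y) * (pd j f y + pd j lam y)
  pf : ∀ i, p.f i = pd i f x
  pu : ∀ i, p.u i = pd i lam x
  pv : p.v = v x

namespace Jet

variable {g : Field n} {F f lam v : E n → ℝ} {x : E n} {p : Pt n} {r : ℝ} {b : Fin n → ℝ}
  (h : Jet g F f lam v x p r b)

include h

lemma gx (i j : Fin n) : g x i j = p.G i j := by
  rw [(h.hg i j).self_of_nhds, Pt.G, Pt.F, Pt.F, h.pf, h.pf, h.pu, h.pu, h.pv]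

lemma up_eq (i j : Fin n) : up g i j x = p.U i j := by
  have e : mat g x * (Matrix.of fun i j => p.U i j) = 1 := by
    ext i k
    rw [Matrix.mul_apply]
    have : ∀ j, mat g x i j * (Matrix.of fun i j => p.U i j) j k = p.G i j * p.U j k := by
      intro j
      rw [Matrix.of_apply]
      unfold mat
      rw [h.gx]
    simp only [this, p.GU]
    unfold dl
    rw [Matrix.one_apply]
  unfold up
  rw [Matrix.inv_eq_right_inv e, Matrix.of_apply]

lemma covNorm_eq : covNorm g (fun j => pd j F) x = r * (p.S / p.s) := by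
  unfold covNorm
  simp only [h.up_eq, h.pF]
  have e : ∑ i, ∑ j, p.U i j * (r * p.F i) * (r * p.F j) =
      r ^ 2 * ∑ i, ∑ j, p.U i j * p.F i * p.F j := by
    simp only [Finset.mul_sum]
    exact Finset.sum_congr rfl fun i _ => Finset.sum_congr rfl fun j _ => by ring
  rw [e, p.FUF, ← mul_pow]
  exact Real.sqrt_sq (mul_pos h.r0 (div_pos p.S0 p.s0)).le

lemma nrm_eq (i : Fin n) : nrm g F i x = p.N i := by
  unfold nrm
  rw [h.covNorm_eq]
  simp only [h.up_eq, h.pF]
  have e : ∑ j, p.U i j * (r * p.F j) = r * ∑ j, p.U i j * p.F j := by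
    simp only [Finset.mul_sum]
    exact Finset.sum_congr rfl fun j _ => by ring
  rw [e, p.UF]
  have hs0 : p.s ≠ 0 := p.s0.ne'
  have hS0 : p.S ≠ 0 := p.S0.ne'
  have hr0 : r ≠ 0 := h.r0.ne'
  unfold Pt.N
  field_simp

lemma trS_eq (T : Field n) : trS g T F x = p.ct (T x) := by
  unfold trS tr Pt.ct
  rw [← Finset.sum_sub_distrib]
  refine Finset.sum_congr rfl fun i _ => ?_
  rw [← Finset.sum_sub_distrib]
  refine Finset.sum_congr rfl fun j _ => ?_
  rw [h.up_eq, h.nrm_eq, h.nrm_eq, ← p.U_sub]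
  ring

/-- the derivative of the metric -/
lemma pd_g (k i j : Fin n) : pd k (fun y => g y i j) x =
    - (pd k (pd i f) x * p.f j + p.f i * pd k (pd j f) x) + pd k v x * (p.F i * p.F j) +
      p.v * ((pd k (pd i f) x + pd k (pd i lam) x) * p.F j +
        p.F i * (pd k (pd j f) x + pd k (pd j lam) x)) := by
  have a1 : ∀ i, HP k (pd i f) (pd k (pd i f) x) x := fun i => HP.of_cd (cd_pd h.cf i)
  have a2 : ∀ i, HP k (pd i lam) (pd k (pd i lam) x) x := fun i => HP.of_cd (cd_pd h.cl i)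
  have a3 : HP k v (pd k v x) x := HP.of_cd h.cv
  have e := (((HP.const k (dl i j) x).sub ((a1 i).mul (a1 j))).add
    ((a3.mul ((a1 i).add (a2 i))).mul ((a1 j).add (a2 j)))).congr (h.hg i j)
  rw [e.pd, Pt.F, Pt.F, h.pf, h.pf, h.pu, h.pu, h.pv]
  ring

/-- contraction of the Christoffel symbols with `dF` -/
lemma chr_F (i j : Fin n) : ∑ k, chr g k i j x * p.F k =
    ∑ l, (p.u l + p.S / p.s ^ 2 * p.m l) *
      ((pd i (fun y => g y j l) x + pd j (fun y => g y i l) x - pd l (fun y => g y i j) x) / 2) := by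
  have e : ∀ k, chr g k i j x * p.F k = ∑ l, p.U l k * p.F k *
      ((pd i (fun y => g y j l) x + pd j (fun y => g y i l) x - pd l (fun y => g y i j) x) / 2) := by
    intro k
    unfold chr
    rw [div_mul_eq_mul_div, Finset.sum_mul, Finset.sum_div]
    refine Finset.sum_congr rfl fun l _ => ?_
    rw [h.up_eq, p.U_symm]
    ring
  simp only [e]
  rw [Finset.sum_comm]
  refine Finset.sum_congr rfl fun l _ => ?_
  rw [← Finset.sum_mul, p.UF]

omit h in
lemma Zf : ∑ l, (p.u l + p.S / p.s ^ 2 * p.m l) * p.f l = (p.S - p.c) / p.s ^ 2 := by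
  have e : ∑ l, (p.u l + p.S / p.s ^ 2 * p.m l) * p.f l =
      ∑ l, p.u l * p.f l + p.S / p.s ^ 2 * ∑ l, p.m l * p.f l := by
    rw [Finset.mul_sum, ← Finset.sum_add_distrib]
    exact Finset.sum_congr rfl fun l _ => by ring
  have hs0 : p.s ≠ 0 := p.s0.ne'
  rw [e, p.uf, p.mf]
  field_simp
  linear_combination (p.S - 1) * p.hs

omit h in
lemma ZF : ∑ l, (p.u l + p.S / p.s ^ 2 * p.m l) * p.F l = p.S ^ 2 / p.s ^ 2 := by
  have e : ∑ l, (p.u l + p.S / p.s ^ 2 * p.m l) * p.F l =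
      ∑ l, p.u l * p.F l + p.S / p.s ^ 2 * ∑ l, p.m l * p.F l := by
    rw [Finset.mul_sum, ← Finset.sum_add_distrib]
    exact Finset.sum_congr rfl fun l _ => by ring
  have hs0 : p.s ≠ 0 := p.s0.ne'
  rw [e, p.uF, p.mF]
  field_simp
  ring

lemma chr_F' (i j : Fin n) : ∑ k, chr g k i j x * p.F k =
    - ((p.S - p.c) / p.s ^ 2) * pd i (pd j f) x +
      p.v * (p.S ^ 2 / p.s ^ 2) * (pd i (pd j f) x + pd i (pd j lam) x) +
      (p.S ^ 2 / p.s ^ 2) / 2 * (pd i v x * p.F j + p.F i * pd j v x) -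
      (∑ l, (p.u l + p.S / p.s ^ 2 * p.m l) * pd l v x) / 2 * (p.F i * p.F j) := by
  rw [h.chr_F, ← Zf, ← ZF]
  have e : ∀ l, (p.u l + p.S / p.s ^ 2 * p.m l) *
      ((pd i (fun y => g y j l) x + pd j (fun y => g y i l) x - pd l (fun y => g y i j) x) / 2) =
      - pd i (pd j f) x * ((p.u l + p.S / p.s ^ 2 * p.m l) * p.f l) +
      p.v * (pd i (pd j f) x + pd i (pd j lam) x) * ((p.u l + p.S / p.s ^ 2 * p.m l) * p.F l) +
      (pd i v x * p.F j + p.F i * pd j v x) / 2 * ((p.u l + p.S / p.s ^ 2 * p.m l) * p.F l) -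
      (p.F i * p.F j) / 2 * ((p.u l + p.S / p.s ^ 2 * p.m l) * pd l v x) := by
    intro l
    rw [h.pd_g i j l, h.pd_g j i l, h.pd_g l i j, pd_symm h.cf j i, pd_symm h.cl j i,
      pd_symm h.cf l i, pd_symm h.cf l j, pd_symm h.cl l i, pd_symm h.cl l j]
    ring
  simp only [e, Finset.sum_add_distrib, Finset.sum_sub_distrib, ← Finset.mul_sum]
  ring

lemma hess_eq (i j : Fin n) : hess g F x i j =
    r * ((1 - p.v * (p.S ^ 2 / p.s ^ 2)) * (pd i (pd j f) x + pd i (pd j lam) x) +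
      ((p.S - p.c) / p.s ^ 2) * pd i (pd j f) x) +
      (b i - r * ((p.S ^ 2 / p.s ^ 2) / 2 * pd i v x)) * p.F j +
      p.F i * (b j - r * ((p.S ^ 2 / p.s ^ 2) / 2 * pd j v x) +
      r * ((∑ l, (p.u l + p.S / p.s ^ 2 * p.m l) * pd l v x) / 2 * p.F j)) := by
  have e : ∑ k, chr g k i j x * pd k F x = r * ∑ k, chr g k i j x * p.F k := by
    rw [Finset.mul_sum]
    refine Finset.sum_congr rfl fun k _ => ?_
    rw [h.pF]
    ring
  unfold hess
  rw [e, h.chr_F', h.pFF]
  ring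

/-- **Null expansion of a level set of `f + lam`.** -/
theorem theta {K : Field n} {a : Fin n → ℝ}
    (hK : ∀ i j, K x i j = (pd i (pd j f) x - p.v * p.S * pd i (pd j lam) x +
      (a i * p.F j + p.F i * a j)) / p.s) :
    thetaPlus g K F x = p.S / p.s * ((p.c / p.S ^ 2 - p.v) * ∑ i, pd i (pd i lam) x +
      2 / p.S * p.ct (fun i j => pd i (pd j f) x)) := by
  have hB : p.ct (fun i j => pd i (pd j lam) x) = ∑ i, pd i (pd i lam) x :=
    p.ct_trace (fun i j => pd_symm h.cl i j) h.eik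
  have hH : p.ct (hess g F x) = r * ((1 - p.v * (p.S ^ 2 / p.s ^ 2)) *
      (p.ct (fun i j => pd i (pd j f) x) + ∑ i, pd i (pd i lam) x) +
      (p.S - p.c) / p.s ^ 2 * p.ct (fun i j => pd i (pd j f) x)) := by
    have e : hess g F x = fun i j => (r * ((1 - p.v * (p.S ^ 2 / p.s ^ 2)) *
        (pd i (pd j f) x + pd i (pd j lam) x) + ((p.S - p.c) / p.s ^ 2) * pd i (pd j f) x) +
        (b i - r * ((p.S ^ 2 / p.s ^ 2) / 2 * pd i v x)) * p.F j) +
        p.F i * (b j - r * ((p.S ^ 2 / p.s ^ 2) / 2 * pd j v x) +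
        r * ((∑ l, (p.u l + p.S / p.s ^ 2 * p.m l) * pd l v x) / 2 * p.F j)) := by
      funext i j
      exact h.hess_eq i j
    rw [e, p.ct_add, p.ct_add, p.ct_mul, p.ct_add, p.ct_mul, p.ct_mul, p.ct_add, p.ct_right,
      p.ct_left, hB]
    ring
  have hKK : p.ct (K x) = (p.ct (fun i j => pd i (pd j f) x) -
      p.v * p.S * ∑ i, pd i (pd i lam) x) / p.s := by
    have e : K x = fun i j => 1 / p.s * ((pd i (pd j f) x - p.v * p.S * pd i (pd j lam) x) +
        (a i * p.F j + p.F i * a j)) := by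
      funext i j
      rw [hK]
      ring
    rw [e, p.ct_mul, p.ct_add, p.ct_sub, p.ct_mul, p.ct_add, p.ct_right, p.ct_left, hB]
    ring
  unfold thetaPlus
  rw [h.trS_eq, h.trS_eq, h.covNorm_eq, hH, hKK]
  have hs0 : p.s ≠ 0 := p.s0.ne'
  have hS0 : p.S ≠ 0 := p.S0.ne'
  have hr0 : r ≠ 0 := h.r0.ne'
  generalize p.ct (fun i j => pd i (pd j f) x) = A
  generalize ∑ i, pd i (pd i lam) x = L
  field_simp
  linear_combination (A + L) * p.hs

end Jet

end Vale.Agent.P366.H375
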