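import Vale.Agent.P366.H375.Hp

/-! Null expansion of the level sets of `f + lam` in a slice `t = f` of a Kerr-Schild metric:
pointwise algebra. -/

open MeasureTheory Metric Filter Topology Set
open scoped ContDiff ENNReal

noncomputable section
namespace Vale.Agent.P366.H375
open Vale.Agent.P366.Stmt


variable {n : ℕ}

/-- Kronecker delta. -/
def dl (i j : Fin n) : ℝ := if i = j then 1 else 0

lemma sum_dl (i : Fin n) (w : Fin n → ℝ) : ∑ j, dl i j * w j = w i := by simp [dl]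

lemma sum_dl' (i : Fin n) (w : Fin n → ℝ) : ∑ j, w j * dl j i = w i := by simp [dl]

lemma dl_symm (i j : Fin n) : dl i j = dl j i := by
  unfold dl
  simp only [eq_comm]

/-- the data at a point: `f i = ∂_i f`, `u i = ∂_i lam`, `S = 1 + ⟨f, u⟩`, `c = 1 - |f|²`,
`σ² = c + v S²`. -/
structure Pt (n : ℕ) where
  f : Fin n → ℝ
  u : Fin n → ℝ
  v : ℝ
  S : ℝ
  c : ℝ
  s : ℝ
  uu : ∑ i, u i * u i = 1
  fu : ∑ i, f i * u i = S - 1
  ff : ∑ i, f i * f i = 1 - c
  hs : s ^ 2 = c + v * S ^ 2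
  s0 : 0 < s
  S0 : 0 < S

namespace Pt

variable (p : Pt n)

/-- gradient of `f + lam` -/
def F (i : Fin n) : ℝ := p.f i + p.u i

def m (i : Fin n) : ℝ := p.f i - p.v * p.S * p.u i

/-- the metric -/
def G (i j : Fin n) : ℝ := dl i j - p.f i * p.f j + p.v * p.F i * p.F j

/-- the inverse metric -/
def U (i j : Fin n) : ℝ := dl i j - p.v * p.u i * p.u j + p.m i * p.m j / p.s ^ 2

/-- the inverse metric of the level set -/
def P (i j : Fin n) : ℝ :=
  dl i j - p.c / p.S ^ 2 * (p.u i * p.u j) - (p.u i * p.f j + p.f i * p.u j) / p.S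

/-- the unit normal -/
def N (i : Fin n) : ℝ := p.s / p.S * p.u i + p.m i / p.s

lemma uf : ∑ i, p.u i * p.f i = p.S - 1 := by
  rw [← p.fu]; exact Finset.sum_congr rfl fun i _ => mul_comm _ _

lemma sum_F (w : Fin n → ℝ) : ∑ i, p.F i * w i = ∑ i, p.f i * w i + ∑ i, p.u i * w i := by
  simp only [F, add_mul, Finset.sum_add_distrib]

lemma sum_m (w : Fin n → ℝ) :
    ∑ i, p.m i * w i = ∑ i, p.f i * w i - p.v * p.S * ∑ i, p.u i * w i := by
  simp only [m, sub_mul, Finset.sum_sub_distrib, Finset.mul_sum, mul_assoc]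

lemma Fu : ∑ i, p.F i * p.u i = p.S := by
  rw [p.sum_F, p.fu, p.uu]; ring

lemma Ff : ∑ i, p.F i * p.f i = p.S - p.c := by
  rw [p.sum_F, p.ff, p.uf]; ring

lemma mf : ∑ i, p.m i * p.f i = 1 - p.c - p.v * p.S * (p.S - 1) := by
  rw [p.sum_m, p.ff, p.uf]

lemma mu : ∑ i, p.m i * p.u i = p.S - 1 - p.v * p.S := by
  rw [p.sum_m, p.fu, p.uu]; ring

lemma fm : ∑ i, p.f i * p.m i = 1 - p.c - p.v * p.S * (p.S - 1) := by
  rw [← p.mf]; exact Finset.sum_congr rfl fun i _ => mul_comm _ _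

lemma um : ∑ i, p.u i * p.m i = p.S - 1 - p.v * p.S := by
  rw [← p.mu]; exact Finset.sum_congr rfl fun i _ => mul_comm _ _

lemma uF : ∑ i, p.u i * p.F i = p.S := by
  rw [← p.Fu]; exact Finset.sum_congr rfl fun i _ => mul_comm _ _

lemma fF : ∑ i, p.f i * p.F i = p.S - p.c := by
  rw [← p.Ff]; exact Finset.sum_congr rfl fun i _ => mul_comm _ _

lemma mF : ∑ i, p.m i * p.F i = p.S - p.s ^ 2 := by
  rw [p.sum_m, p.fF, p.uF, p.hs]; ring

lemma sum_G (i : Fin n) (w : Fin n → ℝ) :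
    ∑ j, p.G i j * w j = w i - p.f i * ∑ j, p.f j * w j + p.v * p.F i * ∑ j, p.F j * w j := by
  have e : ∀ j, p.G i j * w j =
      dl i j * w j - p.f i * (p.f j * w j) + p.v * p.F i * (p.F j * w j) := by
    intro j
    unfold G
    ring
  simp only [e, Finset.sum_add_distrib, Finset.sum_sub_distrib, ← Finset.mul_sum, sum_dl]

lemma sum_U (i : Fin n) (w : Fin n → ℝ) :
    ∑ j, p.U i j * w j =
      w i - p.v * p.u i * ∑ j, p.u j * w j + p.m i / p.s ^ 2 * ∑ j, p.m j * w j := by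
  have e : ∀ j, p.U i j * w j =
      dl i j * w j - p.v * p.u i * (p.u j * w j) + p.m i / p.s ^ 2 * (p.m j * w j) := by
    intro j
    unfold U
    ring
  simp only [e, Finset.sum_add_distrib, Finset.sum_sub_distrib, ← Finset.mul_sum, sum_dl]

lemma sum_P (i : Fin n) (w : Fin n → ℝ) :
    ∑ j, p.P i j * w j = w i - p.c / p.S ^ 2 * p.u i * ∑ j, p.u j * w j -
      (p.u i / p.S * ∑ j, p.f j * w j + p.f i / p.S * ∑ j, p.u j * w j) := by
  have e : ∀ j, p.P i j * w j =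
      dl i j * w j - p.c / p.S ^ 2 * p.u i * (p.u j * w j) -
        (p.u i / p.S * (p.f j * w j) + p.f i / p.S * (p.u j * w j)) := by
    intro j
    unfold P
    ring
  simp only [e, Finset.sum_add_distrib, Finset.sum_sub_distrib, ← Finset.mul_sum, sum_dl]

lemma U_symm (i j : Fin n) : p.U i j = p.U j i := by
  unfold U
  rw [dl_symm]
  ring

lemma P_symm (i j : Fin n) : p.P i j = p.P j i := by
  unfold P
  rw [dl_symm]
  ring

lemma GU (i k : Fin n) : ∑ j, p.G i j * p.U j k = dl i k := by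
  have h1 : ∀ w : Fin n → ℝ, ∑ j, w j * p.U j k =
      w k - p.v * (∑ j, w j * p.u j) * p.u k + (∑ j, w j * p.m j) * p.m k / p.s ^ 2 := by
    intro w
    have h := p.sum_U k w
    have e1 : ∑ j, w j * p.U j k = ∑ j, p.U k j * w j :=
      Finset.sum_congr rfl fun j _ => by rw [p.U_symm, mul_comm]
    have e2 : ∑ j, w j * p.u j = ∑ j, p.u j * w j :=
      Finset.sum_congr rfl fun j _ => mul_comm _ _
    have e3 : ∑ j, w j * p.m j = ∑ j, p.m j * w j :=
      Finset.sum_congr rfl fun j _ => mul_comm _ _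
    rw [e1, e2, e3, h]
    ring
  rw [p.sum_G, h1, h1, p.fu, p.fm, p.Fu]
  have e3 : ∑ j, p.F j * p.m j = p.S - p.s ^ 2 := by
    rw [← p.mF]; exact Finset.sum_congr rfl fun i _ => mul_comm _ _
  rw [e3]
  have hs := p.hs
  have hs0 : p.s ≠ 0 := p.s0.ne'
  unfold U F m
  field_simp
  linear_combination (-(p.f i * (p.f k - p.v * p.S * p.u k))) * hs

/-- `∑ U F = u + (S / s²) m` -/
lemma UF (i : Fin n) : ∑ j, p.U i j * p.F j = p.u i + p.S / p.s ^ 2 * p.m i := by
  have hs0 : p.s ≠ 0 := p.s0.ne'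
  rw [p.sum_U, p.uF, p.mF]
  unfold F m
  field_simp
  ring

lemma FUF : ∑ i, ∑ j, p.U i j * p.F i * p.F j = (p.S / p.s) ^ 2 := by
  have e : ∀ i, ∑ j, p.U i j * p.F i * p.F j = p.F i * (p.u i + p.S / p.s ^ 2 * p.m i) := by
    intro i
    rw [← p.UF, Finset.mul_sum]
    exact Finset.sum_congr rfl fun j _ => by ring
  have e2 : ∑ i, p.F i * (p.u i + p.S / p.s ^ 2 * p.m i) =
      ∑ i, p.F i * p.u i + p.S / p.s ^ 2 * ∑ i, p.m i * p.F i := by
    rw [Finset.mul_sum, ← Finset.sum_add_distrib]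
    exact Finset.sum_congr rfl fun j _ => by ring
  have hs0 : p.s ≠ 0 := p.s0.ne'
  simp only [e]
  rw [e2, p.Fu, p.mF]
  field_simp
  ring

/-- the metric of the level set -/
lemma U_sub (i j : Fin n) : p.U i j - p.N i * p.N j = p.P i j := by
  have hs0 : p.s ≠ 0 := p.s0.ne'
  have hS0 : p.S ≠ 0 := p.S0.ne'
  have hs := p.hs
  have e : p.N i * p.N j = p.s ^ 2 / p.S ^ 2 * (p.u i * p.u j) +
      (p.u i * p.m j + p.m i * p.u j) / p.S + p.m i * p.m j / p.s ^ 2 := by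
    unfold N
    field_simp
    ring
  rw [e]
  unfold U P
  rw [hs]
  unfold m
  field_simp
  ring

lemma P_F (i : Fin n) : ∑ j, p.P i j * p.F j = 0 := by
  have hS0 : p.S ≠ 0 := p.S0.ne'
  rw [p.sum_P, p.uF, p.fF]
  unfold F
  field_simp
  ring

end Pt

end Vale.Agent.P366.H375
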