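import Vale.Agent.P366.H375.X2b

/-! Tools: second derivatives along curves, symmetric matrices vanishing on a plane, functions
which agree on an exterior domain. -/

open MeasureTheory Metric Filter Topology Set
open scoped ContDiff ENNReal

noncomputable section
namespace Vale.Agent.P366.H375
open Vale.Agent.P366.Stmt

variable {n : ℕ}

lemma vec_sum (w : E n) : ∑ i, w i • (EuclideanSpace.single i (1 : ℝ) : E n) = w := by
  ext j
  simp [Finset.sum_apply, Pi.single_apply]

lemma fderiv_sum {G : E n → ℝ} {x : E n} (hG : DifferentiableAt ℝ G x) (w : E n) :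
    fderiv ℝ G x w = ∑ i, w i * pd i G x := by
  conv_lhs => rw [← vec_sum w]
  rw [map_sum]
  refine Finset.sum_congr rfl fun i _ => ?_
  rw [map_smul, smul_eq_mul, pd_fderiv hG]

/-- chain rule along a curve -/
lemma curve_deriv {G : E n → ℝ} {c : ℝ → E n} {w : E n} {t : ℝ} (hG : DifferentiableAt ℝ G (c t))
    (hc : HasDerivAt c w t) : HasDerivAt (fun t => G (c t)) (∑ i, w i * pd i G (c t)) t := by
  rw [← fderiv_sum hG]
  exact hG.hasFDerivAt.comp_hasDerivAt t hc

lemma deriv_apply {c : ℝ → E n} {w : E n} {t : ℝ} (hc : HasDerivAt c w t) (i : Fin n) :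
    HasDerivAt (fun t => c t i) (w i) t := by
  exact ((EuclideanSpace.proj i : E n →L[ℝ] ℝ).hasFDerivAt (x := c t)).comp_hasDerivAt t hc

/-- first derivative of a function vanishing along a curve -/
lemma first {G : E n → ℝ} {c : ℝ → E n} {w : E n} (hG : DifferentiableAt ℝ G (c 0))
    (hc : HasDerivAt c w 0) (h0 : ∀ᶠ t in 𝓝 (0 : ℝ), G (c t) = 0) :
    ∑ i, w i * pd i G (c 0) = 0 := by
  have h1 := curve_deriv hG hc
  have h2 : HasDerivAt (fun t => G (c t)) 0 0 :=
    (hasDerivAt_const (0 : ℝ) (0 : ℝ)).congr_of_eventuallyEq h0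
  exact h1.unique h2

/-- second derivative of a function vanishing along a curve, at a critical point -/
lemma second {G : E n → ℝ} {c : ℝ → E n} {w : E n} (hG : ContDiffAt ℝ ∞ G (c 0))
    (hc : ContDiffAt ℝ ∞ c 0) (hw : HasDerivAt c w 0) (h0 : ∀ᶠ t in 𝓝 (0 : ℝ), G (c t) = 0)
    (hd : ∀ i, pd i G (c 0) = 0) : ∑ i, ∑ j, pd i (pd j G) (c 0) * w i * w j = 0 := by
  have hG1 : ∀ᶠ y in 𝓝 (c 0), DifferentiableAt ℝ G y := by
    have h1 : ContDiffAt ℝ 1 G (c 0) := hG.of_le (by exact_mod_cast le_top)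
    filter_upwards [h1.eventually (by simp)] with y hy using hy.differentiableAt one_ne_zero
  have hc1 : ∀ᶠ t in 𝓝 (0 : ℝ), DifferentiableAt ℝ c t := by
    have h1 : ContDiffAt ℝ 1 c 0 := hc.of_le (by exact_mod_cast le_top)
    filter_upwards [h1.eventually (by simp)] with y hy using hy.differentiableAt one_ne_zero
  have hG2 : ∀ᶠ t in 𝓝 (0 : ℝ), DifferentiableAt ℝ G (c t) := hw.continuousAt.eventually hG1
  have hz : ∀ᶠ t in 𝓝 (0 : ℝ), ∑ j, deriv c t j * pd j G (c t) = 0 := by
    filter_upwards [hG2, hc1, h0.eventually_nhds] with t h1 h2 h3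
    have h4 := curve_deriv h1 h2.hasDerivAt
    have h5 : HasDerivAt (fun t => G (c t)) 0 t :=
      (hasDerivAt_const t (0 : ℝ)).congr_of_eventuallyEq h3
    exact h4.unique h5
  have hc2 : HasDerivAt (deriv c) (deriv (deriv c) 0) 0 := by
    have h1 : ContDiffAt ℝ ∞ (deriv c) 0 := by
      have h2 : ContDiffAt ℝ ∞ (fderiv ℝ c) 0 := hc.fderiv_right (by simp)
      have h3 := h2.clm_apply (contDiffAt_const (c := (1 : ℝ)))
      exact h3
    exact (h1.differentiableAt (by simp)).hasDerivAt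
  have hj : ∀ j, HasDerivAt (fun t => deriv c t j * pd j G (c t))
      (deriv (deriv c) 0 j * pd j G (c 0) + deriv c 0 j * ∑ i, w i * pd i (pd j G) (c 0)) 0 := by
    intro j
    exact (deriv_apply hc2 j).mul (curve_deriv (cd_diff (cd_pd hG j)) hw)
  have hs : HasDerivAt (fun t => ∑ j, deriv c t j * pd j G (c t))
      (∑ j, (deriv (deriv c) 0 j * pd j G (c 0) + deriv c 0 j * ∑ i, w i * pd i (pd j G) (c 0)))
      0 := HasDerivAt.fun_sum fun j _ => hj j
  have h0' : HasDerivAt (fun t => ∑ j, deriv c t j * pd j G (c t)) 0 0 :=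
    (hasDerivAt_const (0 : ℝ) (0 : ℝ)).congr_of_eventuallyEq hz
  have e := hs.unique h0'
  simp only [hd, mul_zero, zero_add, hw.deriv] at e
  rw [Finset.sum_comm]
  refine Eq.trans (Finset.sum_congr rfl fun j _ => ?_) e
  rw [Finset.mul_sum]
  exact Finset.sum_congr rfl fun i _ => by ring

/-- A symmetric matrix which vanishes on the plane `F = 0`. -/
lemma sym_plane {M : Fin n → Fin n → ℝ} (hM : ∀ i j, M i j = M j i) {F Z : Fin n → ℝ}
    (hZ : ∑ i, F i * Z i = 1)
    (h : ∀ X : Fin n → ℝ, ∑ i, F i * X i = 0 → ∑ i, ∑ j, M i j * X i * X j = 0) :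
    ∃ b : Fin n → ℝ, ∀ i j, M i j = b i * F j + F i * b j := by
  obtain ⟨q, hq⟩ : ∃ q : (Fin n → ℝ) → (Fin n → ℝ) → ℝ, q = fun X Y => ∑ i, ∑ j, M i j * X i * Y j :=
    ⟨_, rfl⟩
  have q_symm : ∀ X Y, q X Y = q Y X := by
    intro X Y
    rw [hq]
    show ∑ i, ∑ j, M i j * X i * Y j = ∑ i, ∑ j, M i j * Y i * X j
    rw [Finset.sum_comm]
    exact Finset.sum_congr rfl fun i _ => Finset.sum_congr rfl fun j _ => by rw [hM j i]; ring
  have q_add : ∀ X Y Z, q (fun i => X i + Y i) Z = q X Z + q Y Z := by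
    intro X Y Z
    simp only [hq, mul_add, add_mul, Finset.sum_add_distrib]
  have q_mul : ∀ (r : ℝ) X Y, q (fun i => r * X i) Y = r * q X Y := by
    intro r X Y
    simp only [hq, Finset.mul_sum]
    exact Finset.sum_congr rfl fun i _ => Finset.sum_congr rfl fun j _ => by ring
  have q_add' : ∀ X Y Z, q Z (fun i => X i + Y i) = q Z X + q Z Y := by
    intro X Y Z
    rw [q_symm, q_add, q_symm X, q_symm Y]
  have q_mul' : ∀ (r : ℝ) X Y, q Y (fun i => r * X i) = r * q Y X := by
    intro r X Y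
    rw [q_symm, q_mul, q_symm]
  have q0 : ∀ X, ∑ i, F i * X i = 0 → q X X = 0 := by
    intro X hX
    rw [hq]
    exact h X hX
  -- decomposition
  have key : ∀ w : Fin n → ℝ, q w w =
      2 * (∑ i, F i * w i) * q Z w - (∑ i, F i * w i) ^ 2 * q Z Z := by
    intro w
    obtain ⟨φ, hφ⟩ : ∃ φ, φ = ∑ i, F i * w i := ⟨_, rfl⟩
    have hX : ∑ i, F i * (w i + -φ * Z i) = 0 := by
      have : ∑ i, F i * (w i + -φ * Z i) = ∑ i, F i * w i + -φ * ∑ i, F i * Z i := by
        rw [Finset.mul_sum, ← Finset.sum_add_distrib]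
        exact Finset.sum_congr rfl fun i _ => by ring
      rw [this, hZ, ← hφ]
      ring
    have h1 := q0 _ hX
    rw [q_add, q_add', q_add', q_mul, q_mul, q_mul', q_mul', q_symm w Z] at h1
    rw [← hφ]
    linarith
  have q_e : ∀ w : Fin n → ℝ, ∀ i, q (fun j => dl i j) w = ∑ j, M i j * w j := by
    intro w i
    rw [hq]
    show ∑ a, ∑ b, M a b * dl i a * w b = _
    rw [Finset.sum_comm]
    refine Finset.sum_congr rfl fun b _ => ?_
    have : ∑ a, M a b * dl i a * w b = (∑ a, dl i a * M a b) * w b := by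
      rw [Finset.sum_mul]
      exact Finset.sum_congr rfl fun a _ => by ring
    rw [this, sum_dl]
  have q_ee : ∀ i j, q (fun a => dl i a) (fun a => dl j a) = M i j := by
    intro i j
    rw [q_e]
    have : ∑ a, M i a * dl j a = ∑ a, M i a * dl a j :=
      Finset.sum_congr rfl fun a _ => by rw [dl_symm]
    rw [this, sum_dl']
  have F_e : ∀ i, ∑ a, F a * dl i a = F i := by
    intro i
    have : ∑ a, F a * dl i a = ∑ a, F a * dl a i :=
      Finset.sum_congr rfl fun a _ => by rw [dl_symm]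
    rw [this, sum_dl']
  refine ⟨fun i => q Z (fun a => dl i a) - q Z Z * F i / 2, fun i j => ?_⟩
  have h1 := key (fun a => dl i a + dl j a)
  have h2 := key (fun a => dl i a)
  have h3 := key (fun a => dl j a)
  rw [F_e] at h2 h3
  have h4 : ∑ a, F a * (dl i a + dl j a) = F i + F j := by
    simp only [mul_add, Finset.sum_add_distrib, F_e]
  rw [h4, q_add, q_add', q_add', q_add', q_symm (fun a => dl j a) (fun a => dl i a), q_ee] at h1
  rw [q_ee] at h2 h3 h1
  rw [q_ee] at h1
  linear_combination h1 / 2 - h2 / 2 - h3 / 2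

/-- Two functions which agree on an exterior domain have the same derivative on its boundary. -/
lemma pd_eq_of_eqOn {F : E n → ℝ} (hF : Smooth F) (hne : ∀ x, F x = 0 → ∃ i, pd i F x ≠ 0)
    {u v : E n → ℝ} {x0 : E n} (huv : ∀ x, 0 ≤ F x → u x = v x)
    (hx0 : 0 ≤ F x0)
    (hu : DifferentiableAt ℝ u x0) (hv : DifferentiableAt ℝ v x0) (i : Fin n) :
    pd i u x0 = pd i v x0 := by
  rcases hx0.eq_or_lt with h0 | h0
  · obtain ⟨j, hj⟩ := hne x0 h0.symm
    have hFd : DifferentiableAt ℝ F x0 := (hF.differentiable (by simp)) x0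
    have hh : HasFDerivAt (fun x => u x - v x) (fderiv ℝ u x0 - fderiv ℝ v x0) x0 :=
      hu.hasFDerivAt.sub hv.hasFDerivAt
    have hin : ∀ w : E n, 0 < fderiv ℝ F x0 w → (fderiv ℝ u x0 - fderiv ℝ v x0) w = 0 := by
      intro w hw
      have hc : HasDerivAt (fun t : ℝ => x0 + t • w) w 0 := by
        simpa using ((hasDerivAt_id (0 : ℝ)).smul_const w).const_add x0
      have h1 : HasDerivAt (fun t : ℝ => F (x0 + t • w)) (fderiv ℝ F x0 w) 0 := by
        have h2 : HasFDerivAt F (fderiv ℝ F x0) (x0 + (0 : ℝ) • w) := by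
          simpa using hFd.hasFDerivAt
        exact h2.comp_hasDerivAt 0 hc
      have h3 : HasDerivAt (fun t : ℝ => u (x0 + t • w) - v (x0 + t • w))
          ((fderiv ℝ u x0 - fderiv ℝ v x0) w) 0 := by
        have h2 : HasFDerivAt (fun x => u x - v x) (fderiv ℝ u x0 - fderiv ℝ v x0)
            (x0 + (0 : ℝ) • w) := by
          simpa using hh
        exact h2.comp_hasDerivAt 0 hc
      have h4 : ∀ᶠ t in 𝓝[>] (0 : ℝ), 0 < F (x0 + t • w) := by
        have h5 := h1.tendsto_slope_zero_right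
        have h6 : ∀ᶠ t in 𝓝[>] (0 : ℝ), 0 < t⁻¹ • (F (x0 + (0 + t) • w) - F (x0 + (0 : ℝ) • w)) :=
          h5.eventually_const_lt hw
        filter_upwards [h6, self_mem_nhdsWithin] with t ht ht0
        have ht0' : (0 : ℝ) < t := ht0
        rw [zero_smul, add_zero, ← h0, zero_add, sub_zero, smul_eq_mul] at ht
        exact (mul_pos_iff_of_pos_left (inv_pos.2 ht0')).1 ht
      have h7 := h3.tendsto_slope_zero_right
      have h8 : Tendsto (fun t : ℝ => t⁻¹ • (u (x0 + (0 + t) • w) - v (x0 + (0 + t) • w) -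
          (u (x0 + (0 : ℝ) • w) - v (x0 + (0 : ℝ) • w)))) (𝓝[>] 0) (𝓝 0) := by
        refine Tendsto.congr' ?_ tendsto_const_nhds
        filter_upwards [h4] with t ht
        rw [zero_add, zero_smul, add_zero, huv _ ht.le, huv x0 hx0]
        simp
      exact tendsto_nhds_unique h7 h8
    obtain ⟨w, hw⟩ : ∃ w : E n, 0 < fderiv ℝ F x0 w := by
      rw [pd_fderiv hFd] at hj
      rcases lt_or_gt_of_ne hj with h | h
      · exact ⟨-EuclideanSpace.single j 1, by rw [map_neg]; linarith⟩
      · exact ⟨_, h⟩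
    rw [pd_fderiv hu, pd_fderiv hv]
    set e : E n := EuclideanSpace.single i 1
    have h9 : 0 < fderiv ℝ F x0 ((|fderiv ℝ F x0 e| + 1) • w + (fderiv ℝ F x0 w) • e) := by
      rw [map_add, map_smul, map_smul, smul_eq_mul, smul_eq_mul]
      nlinarith [neg_abs_le (fderiv ℝ F x0 e), hw]
    have h10 := hin _ h9
    rw [map_add, map_smul, map_smul, hin w hw, smul_zero, zero_add, smul_eq_mul] at h10
    have h11 := (mul_eq_zero.1 h10).resolve_left hw.ne'
    simpa [sub_eq_zero] using h11
  · have h1 : u =ᶠ[𝓝 x0] v := by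
      filter_upwards [(isOpen_lt continuous_const hF.continuous).mem_nhds h0] with y hy
      exact huv y (show (0 : ℝ) < F y from hy).le
    exact pd_congr h1 i

/-- `thetaPlus` only depends on the first derivatives of the metric. -/
lemma thetaPlus_congr {g g' K K' : Field n} {F : E n → ℝ} {x : E n}
    (hg : ∀ i j, g x i j = g' x i j) (hK : ∀ i j, K x i j = K' x i j)
    (hd : ∀ i j k, pd k (fun y => g y i j) x = pd k (fun y => g' y i j) x) :
    thetaPlus g K F x = thetaPlus g' K' F x := by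
  have hg' : g x = g' x := funext fun i => funext fun j => hg i j
  have hK' : K x = K' x := funext fun i => funext fun j => hK i j
  have hup : ∀ i j, up g i j x = up g' i j x := fun i j => by
    simp only [up, mat, hg']
  have hchr : ∀ k i j, chr g k i j x = chr g' k i j x := by
    intro k i j
    simp only [chr, hup, hd]
  have hhess : ∀ i j, hess g F x i j = hess g' F x i j := fun i j => by
    simp only [hess, hchr]
  have hcov : ∀ w : Fin n → E n → ℝ, covNorm g w x = covNorm g' w x := fun w => by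
    simp only [covNorm, hup]
  have hnrm : ∀ i, nrm g F i x = nrm g' F i x := fun i => by
    simp only [nrm, hup, hcov]
  simp only [thetaPlus, trS, tr, hup, hhess, hcov, hnrm, hK']

end Vale.Agent.P366.H375
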