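import Vale.Agent.P366.H375.X2d
import Vale.Agent.P366.H375.D

/-! The boundary of a Kerr-Schild exterior: the defining functions `D.F` and `f + λ`. -/

open MeasureTheory Metric Filter Topology Set
open scoped ContDiff ENNReal

noncomputable section
namespace Vale.Agent.P366.KS.X2

open Vale.Agent.P366 (pd E)
open Vale.Agent.P366.H353
open Vale.Agent.P366.H375 (dl HP)

variable {C : Cone} {lam f : E 3 → ℝ} {V : E 4 → ℝ} {D : Stmt.Exterior 3} {x y : E 3} {s t : ℝ}

/-- the components of the boundary point in the direction `z` -/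
def sgi (C : Cone) (i : Fin 3) (z : E 3) : ℝ := pd i C.H z + C.U z * (z i / ‖z‖)

/-- the boundary point in the direction `z` -/
def sgm (C : Cone) (z : E 3) : E 3 := WithLp.toLp 2 fun i => sgi C i z

lemma Sm.ndir (i : Fin 3) : Sm fun z => z i / ‖z‖ :=
  (Sm.coord i).div Sm.norm fun _ hz => norm_ne_zero_iff.2 hz

lemma sm_sgi (C : Cone) (i : Fin 3) : Sm (sgi C i) :=
  (C.smH.pd i).add (C.smU.mul (Sm.ndir i))

lemma sgm_cd (C : Cone) {z : E 3} (hz : z ≠ 0) : ContDiffAt ℝ ∞ (sgm C) z := by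
  rw [contDiffAt_euclidean]
  intro i
  exact sm_sgi C i z hz

lemma sgm_one (C : Cone) (hx : ‖x‖ = 1) : sgm C x = Y C.H x (C.U x) := by
  ext i
  simp [sgm, sgi, Y, hx]

/-- the boundary -/
lemma sgm_bd (hS : IsSlice C lam V f D) {z : E 3} (hz : z ≠ 0) :
    D.F (sgm C z) = 0 ∧ f (sgm C z) + lam (sgm C z) = 0 := by
  have hn : 0 < ‖z‖ := norm_pos_iff.2 hz
  have hU := C.posU z hz
  have hr : 0 < C.U z / ‖z‖ := div_pos hU hn
  have hz' : (C.U z / ‖z‖) • z ≠ 0 := smul_ne_zero hr.ne' hz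
  have hn' : ‖(C.U z / ‖z‖) • z‖ = C.U z := by
    rw [norm_smul, Real.norm_eq_abs, abs_of_pos hr, div_mul_cancel₀ _ hn.ne']
  have hU' : C.U ((C.U z / ‖z‖) • z) = C.U z := by
    rw [C.homU z hz _ hr]
    simp
  have e : Psi C.H ((C.U z / ‖z‖) • z) = sgm C z := by
    ext i
    have h1 : pd i C.H ((C.U z / ‖z‖) • z) = pd i C.H z := by
      rw [(C.homH.pd C.smH i) z hz _ hr]
      simp
    have h0 : Stmt.pd i C.H ((C.U z / ‖z‖) • z) = pd i C.H ((C.U z / ‖z‖) • z) :=
      stmt_pd' (C.smH _ hz') i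
    simp only [Psi, sgm, sgi, PiLp.smul_apply, smul_eq_mul]
    first
    | rw [h1]
    | rw [h0, h1]
    ring
  have h1 := hS.bdr _ hz' (by rw [hn', hU'])
  have h2 := hS.eqL _ hz' (by rw [hn', hU'])
  rw [e] at h1 h2
  refine ⟨h1.1, ?_⟩
  rw [h1.2, h2, hn', hU']
  ring

lemma pd_ndir (hx : ‖x‖ = 1) (i j : Fin 3) : pd j (fun z : E 3 => z i / ‖z‖) x = kd j i - x i * x j := by
  have hx0 := ne_zero_of_one hx
  have h1 : pd j (fun z : E 3 => (z i / ‖z‖) * ‖z‖) x = kd j i := by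
    rw [← pd_coord' (x := x) j i]
    refine pd_congr' (fun z hz => ?_) hx0 j
    exact div_mul_cancel₀ _ (norm_ne_zero_iff.2 hz)
  rw [pd_mul' (Sm.ndir i) Sm.norm hx0, pd_norm' hx0, hx] at h1
  linarith

lemma pd_sgi (C : Cone) (hx : ‖x‖ = 1) (i j : Fin 3) :
    pd j (sgi C i) x = hs C.H j i x + x i * pd j C.U x + C.U x * (kd j i - x i * x j) := by
  have hx0 := ne_zero_of_one hx
  unfold sgi
  rw [pd_add' (C.smH.pd i) (C.smU.mul (Sm.ndir i)) hx0, pd_mul' C.smU (Sm.ndir i) hx0,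
    pd_ndir hx, hx]
  unfold H353.hs
  ring

/-- the velocity of the boundary point -/
def vel (C : Cone) (x : E 3) (v : Fin 3 → ℝ) (i : Fin 3) : ℝ :=
  ∑ j, C.W x i j * v j + (∑ j, pd j C.U x * v j) * x i

lemma curve (C : Cone) (hx : ‖x‖ = 1) {v : E 3} (hv : ∑ i, x i * v i = 0) :
    ContDiffAt ℝ ∞ (fun t : ℝ => sgm C (x + t • v)) 0 ∧
      HasDerivAt (fun t : ℝ => sgm C (x + t • v)) (WithLp.toLp 2 (vel C x fun i => v i)) 0 := by
  have hx0 := ne_zero_of_one hx
  have e0 : x + (0 : ℝ) • v = x := by simp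
  have hl : ContDiffAt ℝ ∞ (fun t : ℝ => x + t • v) 0 :=
    contDiffAt_const.add (contDiffAt_id.smul contDiffAt_const)
  have hcd : ContDiffAt ℝ ∞ (fun t : ℝ => sgm C (x + t • v)) 0 := by
    have h1 : ContDiffAt ℝ ∞ (sgm C) (x + (0 : ℝ) • v) := by rw [e0]; exact sgm_cd C hx0
    exact ContDiffAt.comp (g := sgm C) (f := fun t : ℝ => x + t • v) (0 : ℝ) h1 hl
  refine ⟨hcd, ?_⟩
  have hld : HasDerivAt (fun t : ℝ => x + t • v) v 0 := by
    simpa using ((hasDerivAt_id (0 : ℝ)).smul_const v).const_add x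
  have h2 := (hcd.differentiableAt (by simp)).hasDerivAt
  have e : deriv (fun t : ℝ => sgm C (x + t • v)) 0 = WithLp.toLp 2 (vel C x fun i => v i) := by
    ext i
    have h3 := H375.deriv_apply h2 i
    have h4 : HasDerivAt (fun t : ℝ => sgi C i (x + t • v)) (∑ j, v j * pd j (sgi C i) x) 0 := by
      have h5 : DifferentiableAt ℝ (sgi C i) (x + (0 : ℝ) • v) := by
        rw [e0]
        exact (sm_sgi C i).diff hx0
      have h6 := H375.curve_deriv (G := sgi C i) (c := fun t : ℝ => x + t • v) h5 hld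
      simp only [e0] at h6
      have h7 : ∑ j, v j * Stmt.pd j (sgi C i) x = ∑ j, v j * pd j (sgi C i) x :=
        Finset.sum_congr rfl fun j _ => by rw [stmt_pd ((sm_sgi C i).diff hx0)]
      rw [h7] at h6
      exact h6
    have h5 : (deriv (fun t : ℝ => sgm C (x + t • v)) 0) i = ∑ j, v j * pd j (sgi C i) x :=
      h3.unique h4
    rw [h5]
    show _ = vel C x (fun i => v i) i
    unfold vel
    have h6 : ∀ j, v j * pd j (sgi C i) x = C.W x i j * v j + (pd j C.U x * v j) * x i -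
        (C.U x * x i) * (x j * v j) + C.U x * x i * (x j * v j) := by
      intro j
      rw [pd_sgi C hx, hs_symm C.smH hx0 j i]
      unfold Dat.W pr
      have : kd j i = kd i j := by
        unfold kd
        simp only [eq_comm]
      rw [this]
      ring
    simp only [h6, Finset.sum_add_distrib, Finset.sum_sub_distrib, ← Finset.mul_sum,
      ← Finset.sum_mul, hv]
    ring
  rw [← e]
  exact h2

end Vale.Agent.P366.KS.X2
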