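import Vale.Agent.P366.H375.X2e

/-! The boundary of a Kerr-Schild exterior: comparison of the defining functions. -/

open MeasureTheory Metric Filter Topology Set
open scoped ContDiff ENNReal

noncomputable section
namespace Vale.Agent.P366.KS.X2

open Vale.Agent.P366 (pd E)
open Vale.Agent.P366.H353
open Vale.Agent.P366.H375 (dl HP)

variable {C : Cone} {lam f : E 3 → ℝ} {V : E 4 → ℝ} {D : Stmt.Exterior 3} {x y : E 3} {s t : ℝ}

/-- a linear form which vanishes on the velocities and on `x` -/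
lemma form_zero (C : Cone) (hx : ‖x‖ = 1) {a : Fin 3 → ℝ} (h0 : ∑ i, x i * a i = 0)
    (h : ∀ v : E 3, ∑ i, x i * v i = 0 → ∑ i, vel C x (fun i => v i) i * a i = 0) (i : Fin 3) :
    a i = 0 := by
  obtain ⟨e, f, α, β, γ, F, hW, ha, hd⟩ := C.W_frame hx
  have hee := F.ee
  have hff := F.ff
  have hef := F.ef
  have hxe := F.xe
  have hxf := F.xf
  have h1 := h (WithLp.toLp 2 e) (by simpa using hxe)
  have h2 := h (WithLp.toLp 2 f) (by simpa using hxf)
  have e1 : ∀ v : Fin 3 → ℝ, ∑ i, vel C x v i * a i =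
      ∑ i, (∑ j, C.W x i j * v j) * a i + (∑ j, pd j C.U x * v j) * ∑ i, x i * a i := by
    intro v
    unfold vel
    simp only [add_mul, Finset.sum_add_distrib]
    congr 1
    rw [Finset.mul_sum]
    exact Finset.sum_congr rfl fun i _ => by ring
  have e2 : ∀ v : Fin 3 → ℝ, ∑ i, (∑ j, C.W x i j * v j) * a i =
      (α * (∑ i, e i * v i) + β * (∑ i, f i * v i)) * (∑ i, e i * a i) +
      (β * (∑ i, e i * v i) + γ * (∑ i, f i * v i)) * (∑ i, f i * a i) := by
    intro v
    rw [hW]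
    simp only [fm, Fin.sum_univ_three]
    ring
  have e3 : ∑ i, f i * e i = 0 := by
    rw [← hef]; exact Finset.sum_congr rfl fun i _ => mul_comm _ _
  have h1' : α * (∑ i, e i * a i) + β * (∑ i, f i * a i) = 0 := by
    have h3 := (e1 e).symm.trans h1
    rw [e2 e, h0, hee, e3] at h3
    linear_combination h3
  have h2' : β * (∑ i, e i * a i) + γ * (∑ i, f i * a i) = 0 := by
    have h3 := (e1 f).symm.trans h2
    rw [e2 f, h0, hff, hef] at h3
    linear_combination h3
  have hp : ∑ i, e i * a i = 0 := by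
    have : (α * γ - β ^ 2) * ∑ i, e i * a i = 0 := by linear_combination γ * h1' - β * h2'
    exact (mul_eq_zero.1 this).resolve_left hd.ne'
  have hq : ∑ i, f i * a i = 0 := by
    have : (α * γ - β ^ 2) * ∑ i, f i * a i = 0 := by linear_combination α * h2' - β * h1'
    exact (mul_eq_zero.1 this).resolve_left hd.ne'
  rw [F.vec a i, h0, hp, hq]
  ring

/-- the velocities fill the plane `F = 0` -/
lemma vel_surj (C : Cone) (hx : ‖x‖ = 1) {a : Fin 3 → ℝ} (h0 : ∑ i, x i * a i ≠ 0)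
    (h : ∀ v : E 3, ∑ i, x i * v i = 0 → ∑ i, vel C x (fun i => v i) i * a i = 0) {X : Fin 3 → ℝ}
    (hX : ∑ i, a i * X i = 0) : ∃ v : E 3, ∑ i, x i * v i = 0 ∧ vel C x (fun i => v i) = X := by
  obtain ⟨e, f, α, β, γ, F, hW, ha, hd⟩ := C.W_frame hx
  obtain ⟨m, hm⟩ : ∃ m, m = (γ * (∑ i, e i * X i) - β * (∑ i, f i * X i)) / (α * γ - β ^ 2) :=
    ⟨_, rfl⟩
  obtain ⟨n, hn⟩ : ∃ n, n = (α * (∑ i, f i * X i) - β * (∑ i, e i * X i)) / (α * γ - β ^ 2) :=
    ⟨_, rfl⟩
  have hee := F.ee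
  have hff := F.ff
  have hef := F.ef
  have hxe := F.xe
  have hxf := F.xf
  have e3 : ∑ i, f i * e i = 0 := by
    rw [← hef]; exact Finset.sum_congr rfl fun i _ => mul_comm _ _
  have hne : α * γ - β ^ 2 ≠ 0 := hd.ne'
  have h1 : α * m + β * n = ∑ i, e i * X i := by
    rw [hm, hn]
    field_simp
    ring
  have h2 : β * m + γ * n = ∑ i, f i * X i := by
    rw [hm, hn, mul_div_assoc', mul_div_assoc', ← add_div, div_eq_iff hne]
    ring
  have hxv : ∑ i, x i * (m * e i + n * f i) = 0 := by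
    have : ∑ i, x i * (m * e i + n * f i) = m * (∑ i, x i * e i) + n * ∑ i, x i * f i := by
      simp only [Fin.sum_univ_three]
      ring
    rw [this, hxe, hxf]
    ring
  have hWv : ∀ i, ∑ j, C.W x i j * (m * e j + n * f j) =
      (∑ i, e i * X i) * e i + (∑ i, f i * X i) * f i := by
    intro i
    rw [← h1, ← h2, hW]
    have : ∑ j, fm e f α β γ i j * (m * e j + n * f j) =
        (α * e i + β * f i) * (m * (∑ j, e j * e j) + n * (∑ j, e j * f j)) +
        (β * e i + γ * f i) * (m * (∑ j, f j * e j) + n * (∑ j, f j * f j)) := by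
      simp only [fm, Fin.sum_univ_three]
      ring
    rw [this, hee, hff, hef, e3]
    ring
  have hh := h (WithLp.toLp 2 fun i => m * e i + n * f i) (by simpa using hxv)
  obtain ⟨φ, hφ⟩ : ∃ φ, φ = ∑ j, pd j C.U x * (m * e j + n * f j) := ⟨_, rfl⟩
  have hv : ∀ i, vel C x (fun i => m * e i + n * f i) i =
      (∑ i, e i * X i) * e i + (∑ i, f i * X i) * f i + φ * x i := by
    intro i
    unfold vel
    rw [hWv, hφ]
  have hh' : ∑ i, ((∑ i, e i * X i) * e i + (∑ i, f i * X i) * f i + φ * x i) * a i = 0 := by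
    rw [← hh]
    exact Finset.sum_congr rfl fun i _ => by rw [← hv]
  have hXe := F.vec X
  have hφ' : φ = ∑ j, x j * X j := by
    have h3 : ∑ i, a i * X i = ∑ i, ((∑ j, x j * X j) * x i + (∑ j, e j * X j) * e i +
        (∑ j, f j * X j) * f i) * a i :=
      Finset.sum_congr rfl fun i _ => by rw [← hXe i]; ring
    rw [hX] at h3
    have h4 : (φ - ∑ j, x j * X j) * ∑ i, x i * a i = 0 := by
      have e4 : (φ - ∑ j, x j * X j) * ∑ i, x i * a i =
          ∑ i, ((∑ i, e i * X i) * e i + (∑ i, f i * X i) * f i + φ * x i) * a i -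
          ∑ i, ((∑ j, x j * X j) * x i + (∑ j, e j * X j) * e i + (∑ j, f j * X j) * f i) * a i := by
        rw [← Finset.sum_sub_distrib, Finset.mul_sum]
        exact Finset.sum_congr rfl fun i _ => by ring
      rw [e4, hh', ← h3]
      ring
    have h5 := (mul_eq_zero.1 h4).resolve_right h0
    linarith
  refine ⟨WithLp.toLp 2 fun i => m * e i + n * f i, by simpa using hxv, ?_⟩
  funext i
  show vel C x (fun i => m * e i + n * f i) i = X i
  rw [hv, hφ']
  have := hXe i
  linarith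

/-- the two defining functions of the boundary -/
theorem compare (hS : IsSlice C lam V f D) (hx : ‖x‖ = 1) :
    ∃ (r : ℝ) (b : Fin 3 → ℝ), 0 < r ∧
      (∀ i, Stmt.pd i D.F (Y C.H x (C.U x)) =
        r * (Stmt.pd i f (Y C.H x (C.U x)) + Stmt.pd i lam (Y C.H x (C.U x)))) ∧
      ∀ i j, Stmt.pd i (Stmt.pd j D.F) (Y C.H x (C.U x)) =
        r * (Stmt.pd i (Stmt.pd j f) (Y C.H x (C.U x)) +
          Stmt.pd i (Stmt.pd j lam) (Y C.H x (C.U x))) +
        (b i * (Stmt.pd j f (Y C.H x (C.U x)) + Stmt.pd j lam (Y C.H x (C.U x))) +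
          (Stmt.pd i f (Y C.H x (C.U x)) + Stmt.pd i lam (Y C.H x (C.U x))) * b j) := by
  have hx0 := ne_zero_of_one hx
  obtain ⟨y, hy⟩ : ∃ y, y = Y C.H x (C.U x) := ⟨_, rfl⟩
  rw [← hy]
  have hyF : 0 ≤ D.F y := (mem_iff hS).2 ⟨x, C.U x, hx, le_refl _, hy.symm⟩
  have hfs := hS.smf y hyF
  have hls := hS.smL y hyF
  have hFs : ContDiffAt ℝ ∞ D.F y := D.dom.1.contDiffAt
  have hlx : ∀ i, Stmt.pd i lam y = x i := by
    intro i
    rw [stmt_pd' hls, hy]
    exact pd_lam_Y hS hx (le_refl _) i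
  obtain ⟨a, ha⟩ : ∃ a : Fin 3 → ℝ, a = fun i => Stmt.pd i f y + Stmt.pd i lam y := ⟨_, rfl⟩
  have hxa : ∑ i, x i * a i = 1 + dL lam f y := by
    unfold dL
    rw [ha, ← sum_xx hx, ← Finset.sum_add_distrib]
    refine Finset.sum_congr rfl fun i _ => ?_
    show x i * (Stmt.pd i f y + Stmt.pd i lam y) = _
    rw [← stmt_pd' hfs, ← stmt_pd' hls, hlx]
    ring
  have hSp : 0 < ∑ i, x i * a i := by
    rw [hxa]
    exact dL_pos hS hyF
  obtain ⟨r, hr⟩ : ∃ r, r = (∑ i, x i * Stmt.pd i D.F y) / ∑ i, x i * a i := ⟨_, rfl⟩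
  -- the function `G`
  obtain ⟨G, hG⟩ : ∃ G : E 3 → ℝ, G = fun z => D.F z - r * (f z + lam z) := ⟨_, rfl⟩
  have hGs : ContDiffAt ℝ ∞ G y := by
    rw [hG]
    exact hFs.sub (contDiffAt_const.mul (hfs.add hls))
  have hpdG : ∀ i, Stmt.pd i G =ᶠ[𝓝 y] fun z => Stmt.pd i D.F z - r * (Stmt.pd i f z + Stmt.pd i lam z) := by
    intro i
    have h1 : ContDiffAt ℝ 1 f y := hfs.of_le (by exact_mod_cast le_top)
    have h2 : ContDiffAt ℝ 1 lam y := hls.of_le (by exact_mod_cast le_top)
    filter_upwards [h1.eventually (by simp), h2.eventually (by simp)] with z hzf hzl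
    have h3 : DifferentiableAt ℝ D.F z := D.dom.1.contDiffAt.differentiableAt (by simp)
    have h4 : HP i (fun z => D.F z - r * (f z + lam z))
        (Stmt.pd i D.F z - (0 * (f z + lam z) + r * (Stmt.pd i f z + Stmt.pd i lam z))) z :=
      (HP.of_diff h3).sub ((HP.const i r z).mul ((HP.of_diff (hzf.differentiableAt one_ne_zero)).add
        (HP.of_diff (hzl.differentiableAt one_ne_zero))))
    rw [hG, h4.pd]
    ring
  have hG1 : ∀ i, Stmt.pd i G y = Stmt.pd i D.F y - r * a i := by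
    intro i
    rw [(hpdG i).self_of_nhds, ha]
  have hG2 : ∀ i j, Stmt.pd i (Stmt.pd j G) y = Stmt.pd i (Stmt.pd j D.F) y -
      r * (Stmt.pd i (Stmt.pd j f) y + Stmt.pd i (Stmt.pd j lam) y) := by
    intro i j
    rw [H375.pd_congr (hpdG j) i]
    have h4 := (HP.of_cd (H375.cd_pd hFs j)).sub ((HP.const i r y).mul
      ((HP.of_cd (k := i) (H375.cd_pd hfs j)).add (HP.of_cd (H375.cd_pd hls j))))
    rw [h4.pd]
    ring
  -- along the curves
  have hyc : ∀ v : E 3, sgm C (x + (0 : ℝ) • v) = y := by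
    intro v
    rw [zero_smul, add_zero, sgm_one C hx, hy]
  have hev : ∀ v : E 3, ∀ᶠ t in 𝓝 (0 : ℝ), x + t • v ≠ 0 := by
    intro v
    have h1 : Tendsto (fun t : ℝ => x + t • v) (𝓝 0) (𝓝 (x + (0 : ℝ) • v)) :=
      (continuous_const.add (continuous_id.smul continuous_const)).tendsto 0
    rw [zero_smul, add_zero] at h1
    exact h1.eventually (nhds_ne hx0)
  have hzG : ∀ v : E 3, ∀ᶠ t in 𝓝 (0 : ℝ), G (sgm C (x + t • v)) = 0 := by
    intro v
    filter_upwards [hev v] with t ht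
    have h1 := sgm_bd hS ht
    rw [hG]
    show D.F _ - r * (f _ + lam _) = 0
    rw [h1.1, h1.2]
    ring
  have hzL : ∀ v : E 3, ∀ᶠ t in 𝓝 (0 : ℝ), f (sgm C (x + t • v)) + lam (sgm C (x + t • v)) = 0 := by
    intro v
    filter_upwards [hev v] with t ht using (sgm_bd hS ht).2
  have hvG : ∀ v : E 3, ∑ i, x i * v i = 0 →
      ∑ i, vel C x (fun i => v i) i * Stmt.pd i G y = 0 := by
    intro v hv
    have h1 := (curve C hx hv).2
    have h2 : DifferentiableAt ℝ G ((fun t : ℝ => sgm C (x + t • v)) 0) := by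
      show DifferentiableAt ℝ G (sgm C (x + (0 : ℝ) • v))
      rw [hyc v]
      exact hGs.differentiableAt (by simp)
    have h3 := H375.first h2 h1 (hzG v)
    simp only [hyc v] at h3
    exact h3
  have hva : ∀ v : E 3, ∑ i, x i * v i = 0 → ∑ i, vel C x (fun i => v i) i * a i = 0 := by
    intro v hv
    have h1 := (curve C hx hv).2
    have h2 : DifferentiableAt ℝ (fun z => f z + lam z) ((fun t : ℝ => sgm C (x + t • v)) 0) := by
      show DifferentiableAt ℝ (fun z => f z + lam z) (sgm C (x + (0 : ℝ) • v))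
      rw [hyc v]
      exact (hfs.add hls).differentiableAt (by simp)
    have h3 := H375.first h2 h1 (hzL v)
    simp only [hyc v] at h3
    refine Eq.trans ?_ h3
    refine Finset.sum_congr rfl fun i _ => ?_
    have h4 : HP i (fun z => f z + lam z) (Stmt.pd i f y + Stmt.pd i lam y) y :=
      (HP.of_cd hfs).add (HP.of_cd hls)
    rw [h4.pd, ha]
  have hxG : ∑ i, x i * Stmt.pd i G y = 0 := by
    have h1 : ∑ i, x i * Stmt.pd i G y =
        ∑ i, x i * Stmt.pd i D.F y - r * ∑ i, x i * a i := by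
      rw [Finset.mul_sum, ← Finset.sum_sub_distrib]
      exact Finset.sum_congr rfl fun i _ => by rw [hG1]; ring
    rw [h1, hr, div_mul_cancel₀ _ hSp.ne', sub_self]
  have hG0 : ∀ i, Stmt.pd i G y = 0 := form_zero C hx hxG hvG
  -- the sign of `r`
  have hr0 : 0 ≤ r := by
    rw [hr]
    refine div_nonneg ?_ hSp.le
    have hc : HasDerivAt (fun s => Y C.H x s) x (C.U x) := by
      have h1 : (fun s => Y C.H x s) = fun s => Y C.H x 0 + s • x := by
        funext s
        ext i
        simp [Y]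
      rw [h1]
      simpa using ((hasDerivAt_id (C.U x)).smul_const x).const_add (Y C.H x 0)
    have hFd : DifferentiableAt ℝ D.F ((fun s => Y C.H x s) (C.U x)) :=
      D.dom.1.contDiffAt.differentiableAt (by simp)
    have h2 := H375.curve_deriv hFd hc
    have h3 : D.F (Y C.H x (C.U x)) = 0 := by
      have := (sgm_bd hS hx0).1
      rwa [sgm_one C hx] at this
    have h4 := h2.tendsto_slope
    have h5 : Tendsto (slope (fun s => D.F (Y C.H x s)) (C.U x)) (𝓝[>] (C.U x))
        (𝓝 (∑ i, x i * Stmt.pd i D.F (Y C.H x (C.U x)))) :=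
      h4.mono_left (nhdsWithin_mono _ fun s hs => ne_of_gt hs)
    rw [hy]
    refine ge_of_tendsto h5 ?_
    filter_upwards [self_mem_nhdsWithin] with s hs
    have hs' : C.U x < s := hs
    have h6 : 0 ≤ D.F (Y C.H x s) := (mem_iff hS).2 ⟨x, s, hx, hs'.le, rfl⟩
    rw [slope_def_field, h3, sub_zero]
    exact div_nonneg h6 (by linarith)
  have hr1 : r ≠ 0 := by
    intro h0
    obtain ⟨i, hi⟩ := D.dom.2.1 y (by
      have := (sgm_bd hS hx0).1
      rwa [sgm_one C hx, ← hy] at this)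
    have := hG0 i
    rw [hG1, h0, zero_mul, sub_zero] at this
    exact hi this
  -- second derivatives
  have hsy : ∀ i j, Stmt.pd i (Stmt.pd j G) y = Stmt.pd j (Stmt.pd i G) y := fun i j =>
    H375.pd_symm hGs i j
  obtain ⟨b, hb⟩ := H375.sym_plane (M := fun i j => Stmt.pd i (Stmt.pd j G) y) hsy (F := a)
    (Z := fun i => x i / ∑ i, x i * a i) (by
      have : ∑ i, a i * (x i / ∑ i, x i * a i) = (∑ i, x i * a i) / ∑ i, x i * a i := by
        rw [Finset.sum_div]
        exact Finset.sum_congr rfl fun i _ => by ring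
      rw [this, div_self hSp.ne'])
    (by
      intro X hX
      obtain ⟨v, hv, hvX⟩ := vel_surj C hx hSp.ne' hva hX
      obtain ⟨hc1, hc2⟩ := curve C hx hv
      have h1 : ContDiffAt ℝ ∞ G ((fun t : ℝ => sgm C (x + t • v)) 0) := by
        show ContDiffAt ℝ ∞ G (sgm C (x + (0 : ℝ) • v))
        rw [hyc v]
        exact hGs
      have h2 := H375.second h1 hc1 hc2 (hzG v) (by simp only [hyc v]; exact hG0)
      simp only [hyc v] at h2
      rw [← hvX]
      exact h2)
  refine ⟨r, b, lt_of_le_of_ne hr0 (Ne.symm hr1), ?_, ?_⟩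
  · intro i
    have := hG0 i
    rw [hG1, ha] at this
    linarith
  · intro i j
    have h1 := hb i j
    rw [hG2, ha] at h1
    linarith

end Vale.Agent.P366.KS.X2
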