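import Vale.Agent.P366.H296.X8b
import Vale.Agent.P366.H375.X2g

/-! Asymptotic calculus: functions of order `O(r ^ (-p))` which are continuous far out. -/

open MeasureTheory Metric Filter Topology Set
open scoped ContDiff ENNReal

noncomputable section
namespace Vale.Agent.P366.KS.X5

open Vale.Agent.P366 (pd E)
open Vale.Agent.P366.H353

variable {p q : ℝ} {a b : E 3 → ℝ}

/-- `a` is continuous far out and of order `r ^ (-p)` -/
def Oc (p : ℝ) (a : E 3 → ℝ) : Prop :=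
  ∃ C R : ℝ, 0 < C ∧ 1 ≤ R ∧ ∀ y, R < ‖y‖ → ContinuousAt a y ∧ |a y| ≤ C * ‖y‖ ^ (-p)

lemma Oc.of {R : ℝ} (h : Stmt.BigO p a) (hc : ∀ y, R < ‖y‖ → ContinuousAt a y) : Oc p a := by
  obtain ⟨C, R', h'⟩ := h
  refine ⟨max C 1, max (max R R') 1, lt_max_of_lt_right one_pos, le_max_right _ _, fun y hy => ?_⟩
  have h1 : R < ‖y‖ := ((le_max_left _ _).trans (le_max_left _ _)).trans_lt hy
  have h2 : R' < ‖y‖ := ((le_max_right _ _).trans (le_max_left _ _)).trans_lt hy
  refine ⟨hc y h1, (h' y h2).trans ?_⟩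
  exact mul_le_mul_of_nonneg_right (le_max_left _ _) (Real.rpow_nonneg (norm_nonneg _) _)

lemma Oc.congr {R : ℝ} (h : Oc p a) (e : ∀ y, R < ‖y‖ → b y = a y) : Oc p b := by
  obtain ⟨C, R', hC, hR, h'⟩ := h
  refine ⟨C, max R R', hC, hR.trans (le_max_right _ _), fun y hy => ?_⟩
  have h1 : R < ‖y‖ := (le_max_left _ _).trans_lt hy
  have h2 : R' < ‖y‖ := (le_max_right _ _).trans_lt hy
  have h3 : b =ᶠ[𝓝 y] a := by
    filter_upwards [(isOpen_lt continuous_const continuous_norm).mem_nhds h1] with z hz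
    exact e z hz
  exact ⟨(h' y h2).1.congr h3.symm, by rw [e y h1]; exact (h' y h2).2⟩

lemma Oc.mono (h : Oc p a) (hq : q ≤ p) : Oc q a := by
  obtain ⟨C, R, hC, hR, h'⟩ := h
  refine ⟨C, R, hC, hR, fun y hy => ⟨(h' y hy).1, (h' y hy).2.trans ?_⟩⟩
  have h1 : 1 ≤ ‖y‖ := hR.trans hy.le
  exact mul_le_mul_of_nonneg_left (Real.rpow_le_rpow_of_exponent_le h1 (by linarith)) hC.le

lemma Oc.add (h : Oc p a) (h' : Oc p b) : Oc p fun y => a y + b y := by
  obtain ⟨C, R, hC, hR, h1⟩ := h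
  obtain ⟨C', R', hC', hR', h2⟩ := h'
  refine ⟨C + C', max R R', add_pos hC hC', hR.trans (le_max_left _ _), fun y hy => ?_⟩
  have a1 := h1 y ((le_max_left _ _).trans_lt hy)
  have a2 := h2 y ((le_max_right _ _).trans_lt hy)
  refine ⟨a1.1.add a2.1, (abs_add_le _ _).trans ?_⟩
  rw [add_mul]
  exact add_le_add a1.2 a2.2

lemma Oc.neg (h : Oc p a) : Oc p fun y => - a y := by
  obtain ⟨C, R, hC, hR, h1⟩ := h
  exact ⟨C, R, hC, hR, fun y hy => ⟨(h1 y hy).1.neg, by rw [abs_neg]; exact (h1 y hy).2⟩⟩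

lemma Oc.sub (h : Oc p a) (h' : Oc p b) : Oc p fun y => a y - b y := by
  simpa only [sub_eq_add_neg] using h.add h'.neg

lemma Oc.mul (h : Oc p a) (h' : Oc q b) : Oc (p + q) fun y => a y * b y := by
  obtain ⟨C, R, hC, hR, h1⟩ := h
  obtain ⟨C', R', hC', hR', h2⟩ := h'
  refine ⟨C * C', max R R', mul_pos hC hC', hR.trans (le_max_left _ _), fun y hy => ?_⟩
  have a1 := h1 y ((le_max_left _ _).trans_lt hy)
  have a2 := h2 y ((le_max_right _ _).trans_lt hy)
  have hy0 : 0 < ‖y‖ := one_pos.trans_le (hR.trans ((le_max_left _ _).trans hy.le))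
  refine ⟨a1.1.mul a2.1, ?_⟩
  rw [abs_mul, neg_add, Real.rpow_add hy0]
  calc |a y| * |b y| ≤ (C * ‖y‖ ^ (-p)) * (C' * ‖y‖ ^ (-q)) :=
        mul_le_mul a1.2 a2.2 (abs_nonneg _) (mul_nonneg hC.le (Real.rpow_nonneg hy0.le _))
    _ = _ := by ring

lemma Oc.mul' {r : ℝ} (h : Oc p a) (h' : Oc q b) (hr : r ≤ p + q) : Oc r fun y => a y * b y :=
  (h.mul h').mono hr

lemma Oc.const (c : ℝ) : Oc 0 fun _ => c :=
  ⟨|c| + 1, 1, by positivity, le_refl _, fun y hy => ⟨continuousAt_const, by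
    rw [neg_zero, Real.rpow_zero, mul_one]
    linarith⟩⟩

lemma Oc.cmul (c : ℝ) (h : Oc p a) : Oc p fun y => c * a y :=
  (Oc.const c).mul' h (by linarith)

lemma Oc.zero : Oc p fun _ => 0 :=
  ⟨1, 1, one_pos, le_refl _, fun y hy => ⟨continuousAt_const, by
    rw [abs_zero, one_mul]
    exact Real.rpow_nonneg (norm_nonneg _) _⟩⟩

lemma Oc.sum {ι : Type*} (s : Finset ι) {a : ι → E 3 → ℝ} (h : ∀ i, Oc p (a i)) :
    Oc p fun y => ∑ i ∈ s, a i y := by
  classical
  induction s using Finset.induction_on with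
  | empty => simpa using Oc.zero
  | insert i s hi ih =>
    refine ((h i).add ih).congr (R := 0) fun y _ => ?_
    rw [Finset.sum_insert hi]

lemma Oc.cont (h : Oc p a) : ∃ R0 : ℝ, 0 < R0 ∧ ∀ R, R0 ≤ R →
    ContinuousOn (fun x => a (R • x)) (sphere (0 : E 3) 1) := by
  obtain ⟨C, R, hC, hR, h1⟩ := h
  refine ⟨R + 1, by linarith, fun r hr x hx => ?_⟩
  have hx1 : ‖x‖ = 1 := by simpa using hx
  have hn : ‖r • x‖ = r := by
    rw [norm_smul, hx1, mul_one, Real.norm_eq_abs, abs_of_nonneg (by linarith)]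
  have h2 := (h1 (r • x) (by rw [hn]; linarith)).1
  exact (ContinuousAt.comp (g := a) (f := fun x : E 3 => r • x) h2
    (continuous_const_smul r).continuousAt).continuousWithinAt

/-- The integral over large spheres. -/
lemma Oc.tail (h : Oc p a) (hp : 2 < p) :
    Tendsto (fun R : ℝ => R ^ 2 * S2 (fun x => a (R • x))) atTop (𝓝 0) := by
  obtain ⟨R0, hR0, hc⟩ := h.cont
  obtain ⟨C, R, hC, hR, h1⟩ := h
  have ht : Tendsto (fun r : ℝ => 4 * Real.pi * C * r ^ (-(p - 2))) atTop (𝓝 0) := by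
    have := (tendsto_rpow_neg_atTop (show 0 < p - 2 by linarith)).const_mul (4 * Real.pi * C)
    rwa [mul_zero] at this
  refine squeeze_zero_norm' ?_ ht
  filter_upwards [eventually_ge_atTop R0, eventually_ge_atTop (R + 1)] with r hr hr'
  have hr0 : 0 < r := by linarith
  have h2 := H296.KSx.S2_abs_le (K := C * r ^ (-p)) (hc r hr) (fun x hx => by
    have hn : ‖r • x‖ = r := by
      rw [norm_smul, hx, mul_one, Real.norm_eq_abs, abs_of_pos hr0]
    have := (h1 (r • x) (by rw [hn]; linarith)).2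
    rwa [hn] at this)
  rw [Real.norm_eq_abs, abs_mul, abs_of_nonneg (sq_nonneg r)]
  calc r ^ 2 * |S2 fun x => a (r • x)| ≤ r ^ 2 * (4 * Real.pi * (C * r ^ (-p))) :=
        mul_le_mul_of_nonneg_left h2 (sq_nonneg r)
    _ = 4 * Real.pi * C * (r ^ (2 : ℝ) * r ^ (-p)) := by
        rw [Real.rpow_two]
        ring
    _ = _ := by
        rw [← Real.rpow_add hr0]
        congr 2
        ring

lemma Oc.one_div_norm : Oc 1 fun y => 1 / ‖y‖ :=
  ⟨1, 1, one_pos, le_refl _, fun y hy => by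
    have hy0 : 0 < ‖y‖ := by linarith
    refine ⟨continuousAt_const.div continuous_norm.continuousAt hy0.ne', ?_⟩
    show |1 / ‖y‖| ≤ _
    rw [abs_of_pos (by positivity), one_mul, Real.rpow_neg_one, one_div]⟩

lemma Oc.dir (i : Fin 3) : Oc 0 fun y => y i / ‖y‖ :=
  ⟨1, 1, one_pos, le_refl _, fun y hy => by
    have hy0 : 0 < ‖y‖ := by linarith
    refine ⟨(H296.KSx.cont_coord i).continuousAt.div continuous_norm.continuousAt hy0.ne', ?_⟩
    rw [neg_zero, Real.rpow_zero, mul_one, abs_div, abs_of_pos hy0, div_le_one hy0]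
    simpa using PiLp.norm_apply_le y i⟩

/-- `a / (1 + v)` -/
lemma Oc.div_one_add {v : E 3 → ℝ} (hq : 0 < q) (hv : Oc q v) :
    Oc 0 (fun y => 1 / (1 + v y)) ∧ Oc q (fun y => 1 / √(1 + v y) - 1) := by
  obtain ⟨C, R, hC, hR, h1⟩ := hv
  have ht : Tendsto (fun r : ℝ => C * r ^ (-q)) atTop (𝓝 0) := by
    have := (tendsto_rpow_neg_atTop hq).const_mul C
    rwa [mul_zero] at this
  obtain ⟨R', hR'⟩ := (ht.eventually (gt_mem_nhds (show (0 : ℝ) < 1 / 2 by norm_num))).exists_forall_of_atTop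
  have hv2 : ∀ y, max R R' < ‖y‖ → |v y| ≤ 1 / 2 := fun y hy =>
    (h1 y ((le_max_left _ _).trans_lt hy)).2.trans
      (hR' _ ((le_max_right _ _).trans hy.le)).le
  constructor
  · refine ⟨2, max R R', two_pos, hR.trans (le_max_left _ _), fun y hy => ?_⟩
    have h2 := abs_le.1 (hv2 y hy)
    have h3 : 0 < 1 + v y := by linarith
    refine ⟨continuousAt_const.div (continuousAt_const.add (h1 y ((le_max_left _ _).trans_lt hy)).1)
      h3.ne', ?_⟩
    rw [neg_zero, Real.rpow_zero, mul_one, abs_of_pos (by positivity), div_le_iff₀ h3]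
    linarith
  · refine ⟨2 * C, max R R', by positivity, hR.trans (le_max_left _ _), fun y hy => ?_⟩
    have h2 := abs_le.1 (hv2 y hy)
    have h3 : 0 < 1 + v y := by linarith
    have h4 : 0 < √(1 + v y) := Real.sqrt_pos.2 h3
    refine ⟨(continuousAt_const.div ((continuousAt_const.add
      (h1 y ((le_max_left _ _).trans_lt hy)).1).sqrt) h4.ne').sub continuousAt_const, ?_⟩
    show |1 / √(1 + v y) - 1| ≤ _
    obtain ⟨w, hw⟩ : ∃ w, w = √(1 + v y) := ⟨_, rfl⟩
    rw [← hw] at h4 ⊢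
    have hw2 : w ^ 2 = 1 + v y := by rw [hw]; exact Real.sq_sqrt h3.le
    have hw3 : 1 / 2 ≤ w := by nlinarith
    have h5 : 1 / w - 1 = - v y / (w * (1 + w)) := by
      field_simp
      linear_combination -hw2
    rw [h5, abs_div, abs_neg, abs_of_pos (show 0 < w * (1 + w) by positivity)]
    have h6 : |v y| / (w * (1 + w)) ≤ 2 * |v y| := by
      rw [div_le_iff₀ (by positivity)]
      have : 1 / 2 ≤ w * (1 + w) := by nlinarith
      nlinarith [abs_nonneg (v y)]
    have h7 := (h1 y ((le_max_left _ _).trans_lt hy)).2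
    calc _ ≤ 2 * |v y| := h6
      _ ≤ 2 * (C * ‖y‖ ^ (-q)) := by linarith
      _ = _ := by ring

end Vale.Agent.P366.KS.X5
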