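import Vale.Agent.P366.H375.X5a
import Vale.Agent.P366.H375.E0

/-! Kerr-Schild exteriors far out. -/

open MeasureTheory Metric Filter Topology Set
open scoped ContDiff ENNReal

noncomputable section
namespace Vale.Agent.P366.KS.X5

open Vale.Agent.P366 (pd E)
open Vale.Agent.P366.H353
open Vale.Agent.P366.H296 (gr Hp)
open Vale.Agent.P366.H296.KSx
open Vale.Agent.P366.H375 (dl HP)

variable {C : Cone} {lam f : E 3 → ℝ} {V : E 4 → ℝ} {D : Stmt.Exterior 3} {x y : E 3} {s t : ℝ}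

/-- the function `V(0, y)` -/
def vf (V : E 4 → ℝ) (y : E 3) : ℝ := V (pt 0 y)

lemma abs_coord_le (y : E 3) (i : Fin 3) : |y i| ≤ ‖y‖ := by
  simpa using PiLp.norm_apply_le y i

/-- points far out -/
lemma far_pts (hS : IsSlice C lam V f D) : ∃ R0 M : ℝ, 1 ≤ R0 ∧ 0 < M ∧ ∀ y : E 3, R0 < ‖y‖ →
    0 < D.F y ∧ f y = 0 ∧ ∃ (x : E 3) (s : ℝ), ‖x‖ = 1 ∧ C.U x < s ∧ Y C.H x s = y ∧
      |‖y‖ - s| ≤ M ∧ (∀ i, |y i - s * x i| ≤ M) ∧ ‖y‖ ≤ 2 * s ∧ s ≤ 2 * ‖y‖ := by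
  obtain ⟨R1, hR1⟩ := D.dom.2.2.2
  obtain ⟨R2, hR2⟩ := hS.cpt
  obtain ⟨B, hB0, hB⟩ := H296.bdd_above (f := fun x => C.U x) C.smU.contOn
  obtain ⟨G, hG0, hG⟩ := H296.bdd_above (f := fun x => ‖gr C.H x‖) (by
    have : ContinuousOn (gr C.H) (sphere (0 : E 3) 1) := fun x hx =>
      (H296.gr_contDiffAt C.smH (ne_zero_of_one (by simpa using hx))).continuousAt.continuousWithinAt
    exact this.norm)
  refine ⟨|R1| + |R2| + B + 2 * G + 1, G, ?_, hG0, fun y hy => ?_⟩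
  · have := abs_nonneg R1
    have := abs_nonneg R2
    linarith
  have h1 := le_abs_self R1
  have h2 := le_abs_self R2
  have h3 := abs_nonneg R1
  have h4 := abs_nonneg R2
  have hF : 0 < D.F y := hR1 y (show R1 < ‖y‖ by linarith)
  have hf : f y = 0 := hR2 y (show R2 < ‖y‖ by linarith)
  obtain ⟨x, s, hx, hs, rfl⟩ := (mem_iff hS).1 hF.le
  have hs0 : 0 < s := (C.posU x (ne_zero_of_one hx)).trans_le hs
  have hg := hG x hx
  have hn : ‖s • x‖ = s := by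
    rw [norm_smul, hx, mul_one, Real.norm_eq_abs, abs_of_pos hs0]
  have hd : |‖Y C.H x s‖ - s| ≤ G := by
    rw [Y_gr, ← hn]
    have := abs_norm_sub_norm_le (gr C.H x + s • x) (s • x)
    rw [add_sub_cancel_right, hn] at this
    rw [hn]
    exact this.trans hg
  have hd' := abs_le.1 hd
  refine ⟨hF, hf, x, s, hx, ?_, rfl, hd, ?_, ?_, ?_⟩
  · have := hB x hx
    linarith
  · intro i
    have e : Y C.H x s i - s * x i = gr C.H x i := by
      rw [Y_gr]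
      simp
    rw [e]
    exact (abs_coord_le _ i).trans hg
  · linarith
  · linarith

lemma dlt_oc (hS : IsSlice C lam V f D) (i : Fin 3) : Oc 1 fun y => pd i lam y - y i / ‖y‖ := by
  obtain ⟨R0, M, hR0, hM, h⟩ := far_pts hS
  refine ⟨2 * M, R0, by positivity, hR0, fun y hy => ?_⟩
  obtain ⟨hF, hf, x, s, hx, hs, e, hd, hi, h1, h2⟩ := h y hy
  have hy0 : 0 < ‖y‖ := by linarith
  refine ⟨(pd_contAt (hS.smL y hF.le) i).sub
    ((cont_coord i).continuousAt.div continuous_norm.continuousAt hy0.ne'), ?_⟩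
  have hp : pd i lam y = x i := by
    rw [← e]
    exact pd_lam_Y hS hx hs.le i
  have e1 : pd i lam y - y i / ‖y‖ = ((‖y‖ - s) * x i - (y i - s * x i)) / ‖y‖ := by
    rw [hp]
    field_simp
    ring
  show |pd i lam y - y i / ‖y‖| ≤ _
  rw [e1, abs_div, abs_of_pos hy0, Real.rpow_neg_one, ← div_eq_mul_inv]
  apply div_le_div_of_nonneg_right _ hy0.le
  refine (abs_sub _ _).trans ?_
  rw [abs_mul]
  have h3 : |x i| ≤ 1 := by
    have := abs_coord_le x i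
    rwa [hx] at this
  have h4 : |‖y‖ - s| * |x i| ≤ M * 1 := mul_le_mul hd h3 (abs_nonneg _) hM.le
  have h5 := hi i
  linarith

/-- the determinant along the rays -/
lemma det2_Ws_eq (C : Cone) (hx : ‖x‖ = 1) (s : ℝ) :
    det2 (Ws C.H s x) = det2 (fun i j => hs C.H i j x) + s * lap C.H x + s ^ 2 := by
  obtain ⟨e, f, F⟩ := exists_fr (sum_xx hx)
  obtain ⟨a, b, c, h⟩ : ∃ a b c, (fun i j => hs C.H i j x) = fm e f a b c :=
    ⟨_, _, _, F.mat_eq (fun i j => hs_symm C.smH (ne_zero_of_one hx) i j) (C.toDat.hs_x hx)⟩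
  have hW : Ws C.H s x = fm e f (a + s) b (c + s) := by
    funext i j
    have h1 : hs C.H i j x = fm e f a b c i j := congrFun (congrFun h i) j
    have h2 : pr x i j = fm e f 1 0 1 i j := by rw [F.pr_eq]
    unfold Ws
    rw [h1, h2]
    unfold fm
    ring
  have hl : lap C.H x = a + c := by
    rw [← F.tr_fm a b c, ← h]
    rfl
  rw [hW, h, hl, F.det_fm, F.det_fm]
  ring

lemma eta_oc (hS : IsSlice C lam V f D) : Oc 2 fun y => lap lam y - 2 / ‖y‖ := by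
  obtain ⟨R0, M, hR0, hM, h⟩ := far_pts hS
  obtain ⟨T, hT0, hT⟩ := H296.bdd_above (f := fun x => |lap C.H x|) C.smH.lap.contOn.abs
  obtain ⟨d, hd0, hdd⟩ := H296.bdd_above (f := fun x => |det2 fun i j => hs C.H i j x|)
    ((Sm.det2 (M := fun x i j => hs C.H i j x) fun i j => C.smH.hs i j).contOn.abs)
  refine ⟨8 * (T + d + M), max R0 (2 * (1 + 2 * T + 2 * d)), by positivity,
    hR0.trans (le_max_left _ _), fun y hy' => ?_⟩
  have hy : R0 < ‖y‖ := (le_max_left _ _).trans_lt hy'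
  have hyb : 2 * (1 + 2 * T + 2 * d) < ‖y‖ := (le_max_right _ _).trans_lt hy'
  obtain ⟨hF, hf, x, s, hx, hs, e, hd, hi, h1, h2⟩ := h y hy
  have hy0 : 0 < ‖y‖ := by linarith
  have hsm := hS.smL y hF.le
  refine ⟨?_, ?_⟩
  · apply ContinuousAt.sub
    · unfold lap
      exact tendsto_finsetSum _ fun i _ => hs_contAt hsm i i
    · exact continuousAt_const.div continuous_norm.continuousAt hy0.ne'
  have hHd := lap_lam_Y hS hx hs.le
  rw [det2_Ws_eq C hx, tr3_Ws C hx, e] at hHd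
  have hT' := hT x hx
  have hd' := hdd x hx
  obtain ⟨Tx, hTx⟩ : ∃ Tx, Tx = lap C.H x := ⟨_, rfl⟩
  obtain ⟨dx, hdx⟩ : ∃ dx, dx = det2 fun i j => H353.hs C.H i j x := ⟨_, rfl⟩
  rw [← hTx, ← hdx] at hHd
  have hT'' : |Tx| ≤ T := by rw [hTx]; exact hT'
  have hd'' : |dx| ≤ d := by rw [hdx]; exact hd'
  have a1 := abs_le.1 hT''
  have a2 := abs_le.1 hd''
  have a3 := abs_le.1 hd
  have hs1 : 1 + 2 * T + 2 * d < s := by linarith
  have hdet : s ^ 2 / 2 ≤ dx + s * Tx + s ^ 2 := by nlinarith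
  have hdet0 : 0 < dx + s * Tx + s ^ 2 := lt_of_lt_of_le (by nlinarith) hdet
  have hH : lap lam y = (Tx + 2 * s) / (dx + s * Tx + s ^ 2) := by
    rw [eq_div_iff hdet0.ne', hHd]
  have e1 : lap lam y - 2 / ‖y‖ = ((‖y‖ - 2 * s) * Tx - 2 * dx + 2 * s * (‖y‖ - s)) /
      (‖y‖ * (dx + s * Tx + s ^ 2)) := by
    rw [hH, div_sub_div _ _ hdet0.ne' hy0.ne', mul_comm (dx + s * Tx + s ^ 2) ‖y‖]
    congr 1
    ring
  have hs0 : 0 < s := by linarith
  show |lap lam y - 2 / ‖y‖| ≤ _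
  rw [e1, abs_div, abs_of_pos (mul_pos hy0 hdet0)]
  have hnum : |(‖y‖ - 2 * s) * Tx - 2 * dx + 2 * s * (‖y‖ - s)| ≤ 2 * s * (T + d + M) := by
    have b1 : |(‖y‖ - 2 * s) * Tx| ≤ 2 * s * T := by
      rw [abs_mul]
      refine mul_le_mul ?_ hT'' (abs_nonneg _) (by linarith)
      rw [abs_le]
      constructor <;> linarith
    have b2 : |2 * s * (‖y‖ - s)| ≤ 2 * s * M := by
      rw [abs_mul, abs_of_pos (by linarith : (0 : ℝ) < 2 * s)]
      exact mul_le_mul_of_nonneg_left hd (by linarith)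
    have b3 : |2 * dx| ≤ 2 * s * d := by
      rw [abs_mul, abs_of_pos two_pos]
      nlinarith
    refine (abs_add_le _ _).trans ((add_le_add_left (abs_sub _ _) _).trans ?_)
    linarith
  rw [div_le_iff₀ (mul_pos hy0 hdet0)]
  have hr2 : ‖y‖ ^ (-(2 : ℝ)) = 1 / ‖y‖ ^ 2 := by
    rw [Real.rpow_neg hy0.le, Real.rpow_two, one_div]
  rw [hr2]
  have hfin : 2 * s * (T + d + M) ≤ 8 * (T + d + M) * (1 / ‖y‖ ^ 2) * (‖y‖ * (s ^ 2 / 2)) := by
    have e2 : 8 * (T + d + M) * (1 / ‖y‖ ^ 2) * (‖y‖ * (s ^ 2 / 2)) =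
        2 * s * (T + d + M) * (2 * s / ‖y‖) := by
      field_simp
      ring
    rw [e2]
    have h3 : 1 ≤ 2 * s / ‖y‖ := by rwa [le_div_iff₀ hy0, one_mul]
    exact le_mul_of_one_le_right (by positivity) h3
  refine hnum.trans (hfin.trans ?_)
  exact mul_le_mul_of_nonneg_left (mul_le_mul_of_nonneg_left hdet hy0.le) (by positivity)

/-- the metric far out -/
lemma g_far (hS : IsSlice C lam V f D) : ∃ R0 : ℝ, 1 ≤ R0 ∧ ∀ y : E 3, R0 < ‖y‖ →
    (∀ᶠ z in 𝓝 y, f z = 0) ∧ 0 < D.F y ∧ ∑ i, pd i lam y * pd i lam y = 1 ∧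
      ∀ i j, D.g y i j = kd i j + vf V y * (pd i lam y * pd j lam y) := by
  obtain ⟨R0, M, hR0, hM, h⟩ := far_pts hS
  refine ⟨R0, hR0, fun y hy => ?_⟩
  obtain ⟨hF, hf, x, s, hx, hs, e, hd, hi, h1, h2⟩ := h y hy
  have hev : ∀ᶠ z in 𝓝 y, f z = 0 := by
    filter_upwards [(isOpen_lt continuous_const continuous_norm).mem_nhds hy] with z hz
    exact (h z hz).2.1
  have hpd : ∀ i, pd i f y = 0 := by
    intro i
    have hev' : f =ᶠ[𝓝 y] fun _ => 0 := hev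
    unfold Vale.Agent.P366.pd
    rw [hev'.fderiv_eq]
    simp
  refine ⟨hev, hF, ?_, fun i j => ?_⟩
  · rw [← gsq_lam' hS hF.le]
    exact Finset.sum_congr rfl fun i _ => (sq _).symm
  · rw [hS.met _ hF.le, indG_eq (lam_diff hS hF.le) (f_diff hS hF.le), hf]
    simp only [hpd]
    unfold vf
    ring

/-- `V` far out as the trace of the metric -/
lemma vf_far (hS : IsSlice C lam V f D) : ∃ R0 : ℝ, 1 ≤ R0 ∧ ∀ y : E 3, R0 < ‖y‖ →
    vf V y = ∑ i, (D.g y i i - 1) := by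
  obtain ⟨R0, hR0, h⟩ := g_far hS
  refine ⟨R0, hR0, fun y hy => ?_⟩
  obtain ⟨-, -, h1, h2⟩ := h y hy
  have e : ∀ i : Fin 3, D.g y i i - 1 = vf V y * (pd i lam y * pd i lam y) := by
    intro i
    rw [h2, kd, if_pos rfl]
    ring
  simp only [e, ← Finset.mul_sum, h1, mul_one]

lemma vf_cd (hS : IsSlice C lam V f D) (hV : ∀ p ∈ Region lam f D, ContDiffAt ℝ ∞ V p) :
    ∃ R0 : ℝ, 1 ≤ R0 ∧ ∀ y : E 3, R0 < ‖y‖ → ContDiffAt ℝ ∞ V (pt 0 y) ∧
      ContDiffAt ℝ ∞ (vf V) y ∧ 0 < 1 + vf V y := by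
  obtain ⟨R0, hR0, h⟩ := g_far hS
  refine ⟨R0, hR0, fun y hy => ?_⟩
  obtain ⟨hev, hF, h1, h2⟩ := h y hy
  have hf0 : f y = 0 := hev.self_of_nhds
  have hm := mem_region hS hF.le
  rw [hf0] at hm
  refine ⟨hV _ hm, cd_slice (hV _ hm), ?_⟩
  have h3 := det_indG_pos hS hF.le
  have hpd : ∀ i, pd i f y = 0 := by
    intro i
    have hev' : f =ᶠ[𝓝 y] fun _ => 0 := hev
    unfold Vale.Agent.P366.pd
    rw [hev'.fderiv_eq]
    simp
  unfold dL at h3
  rw [hf0] at h3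
  simp only [hpd, mul_zero, Finset.sum_const_zero, add_zero, one_pow, mul_one] at h3
  norm_num at h3
  exact h3

section AF

variable {q : ℝ}

lemma g_oc (hA : ∀ i j k l, Stmt.BigO q (fun x => D.g x i j - if i = j then 1 else 0) ∧
    Stmt.BigO (q + 1) (Stmt.pd k fun x => D.g x i j) ∧
    Stmt.BigO (q + 1 + 1) (Stmt.pd l (Stmt.pd k fun x => D.g x i j)) ∧
    Stmt.BigO (q + 1) (fun x => D.K x i j) ∧
    Stmt.BigO (q + 1 + 1) (Stmt.pd k fun x => D.K x i j)) (i j k : Fin 3) :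
    Oc q (fun x => D.g x i j - kd i j) ∧ Oc (q + 1) (Stmt.pd k fun x => D.g x i j) ∧
      Oc (q + 1) (fun x => D.K x i j) := by
  have h := hA i j k 0
  have hg := (D.smooth i j).1
  have hK := (D.smooth i j).2
  refine ⟨Oc.of (R := 0) h.1 fun y _ => ?_, Oc.of (R := 0) h.2.1 fun y _ => ?_,
    Oc.of (R := 0) h.2.2.2.1 fun y _ => ?_⟩
  · exact hg.continuous.continuousAt.sub continuousAt_const
  · exact (H375.cd_pd hg.contDiffAt k).continuousAt
  · exact hK.continuous.continuousAt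

lemma vf_oc (hS : IsSlice C lam V f D)
    (hA : ∀ i j k l, Stmt.BigO q (fun x => D.g x i j - if i = j then 1 else 0) ∧
    Stmt.BigO (q + 1) (Stmt.pd k fun x => D.g x i j) ∧
    Stmt.BigO (q + 1 + 1) (Stmt.pd l (Stmt.pd k fun x => D.g x i j)) ∧
    Stmt.BigO (q + 1) (fun x => D.K x i j) ∧
    Stmt.BigO (q + 1 + 1) (Stmt.pd k fun x => D.K x i j)) : Oc q (vf V) := by
  obtain ⟨R0, hR0, h⟩ := vf_far hS
  refine (Oc.sum Finset.univ fun i => (g_oc hA i i 0).1).congr (R := R0) fun y hy => ?_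
  rw [h y hy]
  exact Finset.sum_congr rfl fun i _ => by rw [kd, if_pos rfl]

lemma dvf_oc (hS : IsSlice C lam V f D)
    (hA : ∀ i j k l, Stmt.BigO q (fun x => D.g x i j - if i = j then 1 else 0) ∧
    Stmt.BigO (q + 1) (Stmt.pd k fun x => D.g x i j) ∧
    Stmt.BigO (q + 1 + 1) (Stmt.pd l (Stmt.pd k fun x => D.g x i j)) ∧
    Stmt.BigO (q + 1) (fun x => D.K x i j) ∧
    Stmt.BigO (q + 1 + 1) (Stmt.pd k fun x => D.K x i j)) (k : Fin 3) :
    Oc (q + 1) (pd k (vf V)) := by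
  obtain ⟨R0, hR0, h⟩ := vf_far hS
  refine (Oc.sum Finset.univ fun i => (g_oc hA i i k).2.1).congr (R := R0) fun y hy => ?_
  have hev : vf V =ᶠ[𝓝 y] fun y => ∑ i, (D.g y i i - 1) := by
    filter_upwards [(isOpen_lt continuous_const continuous_norm).mem_nhds hy] with z hz
    exact h z hz
  have hsm : ContDiffAt ℝ ∞ (fun y => ∑ i, (D.g y i i - 1)) y :=
    ContDiffAt.sum fun i _ => (D.smooth i i).1.contDiffAt.sub contDiffAt_const
  rw [← X2.stmt_pd' (hsm.congr_of_eventuallyEq hev), H375.pd_congr hev]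
  have h1 : HP k (fun y => ∑ i, (D.g y i i - 1)) (∑ i, (Stmt.pd k (fun y => D.g y i i) y - 0)) y :=
    HP.sum _ fun i _ => (HP.of_cd (D.smooth i i).1.contDiffAt).sub (HP.const _ _ _)
  rw [h1.pd]
  exact Finset.sum_congr rfl fun i _ => by ring

end AF

end Vale.Agent.P366.KS.X5
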